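import Crest.Agent.X212.Int54.Fram
import Crest.Agent.X212.An.Gauge

/-!
# X212/Int54/Link (helper54): forms and the format of the analysis (`An.Pre`, `An.Fr`, `An.Base`)
-/

set_option autoImplicit false
set_option linter.unusedSectionVars false

open Set Filter Topology Function Module MeasureTheory
open scoped ContDiff ENNReal Manifold
open Crest.Agent.R208 Crest.Agent.R208.F Crest.Agent.X212.Dr59 Crest.Agent.X212.Met55
open Crest.Agent.X212.An (HasDens Pre Fr Base Geo GEq)

noncomputable section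

namespace Crest.Agent.X212.Int54

theorem ext_loc {M : Type*} [TopologicalSpace M] [SecondCountableTopology M] [MeasurableSpace M]
    {μ ν : Measure M} (h : ∀ x, ∃ O ∈ 𝓝 x, μ.restrict O = ν.restrict O) : μ = ν := by
  choose O h1 h2 using h
  obtain ⟨c, hc⟩ := TopologicalSpace.countable_cover_nhds h1
  exact Measure.ext_of_biUnion_eq_univ hc.1 hc.2 fun x _ => h2 x

variable {E : Type} [NormedAddCommGroup E] [NormedSpace ℝ E] [FiniteDimensional ℝ E]
  [MeasurableSpace E] [BorelSpace E]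
  {H : Type} [TopologicalSpace H] {I : ModelWithCorners ℝ E H} [I.Boundaryless]
  {M : Type} [TopologicalSpace M] [ChartedSpace H M] [IsManifold I ∞ M]
  [MeasurableSpace M] [BorelSpace M] [SecondCountableTopology M]
  {E' : Type} [NormedAddCommGroup E'] [NormedSpace ℝ E'] [FiniteDimensional ℝ E']
  [MeasurableSpace E'] [BorelSpace E']
  {H' : Type} [TopologicalSpace H'] {J : ModelWithCorners ℝ E' H'} [J.Boundaryless]
  {N : Type} [TopologicalSpace N] [ChartedSpace H' N] [IsManifold J ∞ N]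
  [MeasurableSpace N] [BorelSpace N] [SecondCountableTopology N]
  {ι κ : Type} [Fintype ι] [Fintype κ]

theorem leb_eq : An.leb E = hm E := rfl

section hasDens
variable {x : M} {O : Set M} {μ ν : Measure M} {ρ ρ' : E → ℝ}

theorem ms_chart_image {s : Set M} (hs : MeasurableSet s) (hO : s ⊆ (extChartAt I x).source) :
    MeasurableSet (extChartAt I x '' s) :=
  ms_image (I := 𝓘(ℝ, E)) (J := I) hs
    (fun _ hw => (contMDiffAt_chart (hO hw)).mdifferentiableAt (by simp))
    ((extChartAt I x).injOn.mono hO)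

/-- the density of `dens I a` in a chart -/
theorem hasDens (a : M → Ext E) (hO : IsOpen O) (hx : x ∈ O) (hs : O ⊆ (extChartAt I x).source) :
    HasDens I (dens I a) x O fun y => |cd I x a y| := by
  refine ⟨hO, hx, hs, ?_⟩
  have h := map_dens (I := 𝓘(ℝ, E)) (J := I) (f := extChartAt I x) rfl (rp I x a) hO.measurableSet
    (fun _ hw => (contMDiffAt_chart (hs hw)).mdifferentiableAt (by simp))
    ((extChartAt I x).injOn.mono hs)
  rw [dens_congr_on (I := I) (b := a) hO.measurableSet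
    (fun y hy => by rw [pm_chart_rp (hs hy)]), dens_model,
    restrict_withDensity (ms_chart_image hO.measurableSet hs)] at h
  exact h

theorem hasDens_congr (h : HasDens I μ x O ρ) (e : EqOn ρ ρ' (extChartAt I x '' O)) :
    HasDens I μ x O ρ' := by
  refine ⟨h.1, h.2.1, h.2.2.1, h.2.2.2.trans (withDensity_congr_ae ?_)⟩
  filter_upwards [ae_restrict_mem (ms_chart_image h.1.measurableSet h.2.2.1)] with y hy
  rw [e hy]

theorem restrict_eq_of_hasDens (h : HasDens I μ x O ρ) (h' : HasDens I ν x O ρ) :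
    μ.restrict O = ν.restrict O := by
  have hm := h.1.measurableSet
  have hc : ContinuousOn (extChartAt I x) O := (continuousOn_extChartAt x).mono h.2.2.1
  have e := h.2.2.2.trans h'.2.2.2.symm
  refine Measure.ext fun t ht => ?_
  have h1 := ms_chart_image (ht.inter hm) (inter_subset_right.trans h.2.2.1)
  have h2 : extChartAt I x ⁻¹' (extChartAt I x '' (t ∩ O)) ∩ O = t ∩ O := by
    ext y
    refine ⟨?_, fun hy => ⟨mem_image_of_mem _ hy, hy.2⟩⟩
    rintro ⟨⟨z, hz, e⟩, hy⟩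
    rwa [← (extChartAt I x).injOn (h.2.2.1 hz.2) (h.2.2.1 hy) e]
  have h3 := congrArg (fun m : Measure E => m (extChartAt I x '' (t ∩ O))) e
  simp only [Measure.map_apply_of_aemeasurable (hc.aemeasurable hm) h1,
    Measure.restrict_apply' hm, h2] at h3
  rwa [Measure.restrict_apply ht, Measure.restrict_apply ht]

theorem eq_dens_of_hasDens {a : M → Ext E} (h : ∀ x, ∃ O ρ, HasDens I μ x O ρ ∧
    EqOn ρ (fun y => |cd I x a y|) (extChartAt I x '' O)) : μ = dens I a := ext_loc fun x => by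
  obtain ⟨O, ρ, h1, h2⟩ := h x
  exact ⟨O, h1.1.mem_nhds h1.2.1,
    restrict_eq_of_hasDens (hasDens_congr h1 h2) (hasDens a h1.1 h1.2.1 h1.2.2.1)⟩

/-- the field `Pre.dens` for the measure of an orientation form -/
theorem Ori.pre_dens {o : M → Ext E} (ho : Ori I o) (x : M) :
    ∃ O ρ, HasDens I (dens I o) x O ρ ∧ ContDiffOn ℝ ∞ ρ (extChartAt I x '' O) ∧
      ∀ y ∈ extChartAt I x '' O, 0 < ρ y := by
  refine ⟨_, _, hasDens o (isOpen_extChartAt_source x) (mem_extChartAt_source x) subset_rfl,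
    fun y hy => ?_, fun y hy => ?_⟩
  all_goals rw [(extChartAt I x).image_source_eq_target] at hy
  · exact ((contDiffAt_cd le_rfl hy (ho.sm _)).abs (cd_ne hy (ho.ne _))).contDiffWithinAt
  · exact abs_pos.2 (cd_ne hy (ho.ne _))

end hasDens

section vol
variable {F : Pre I M ι} {v o a : M → Ext E}

theorem pre_sp (F : Pre I M ι) (x : M) : Sp (fv F.e x) := sp_of_span (F.span x)

theorem gram_eq (F : Pre I M ι) (x y : M) :
    F.gram x y = gm (finBasis ℝ E) fun a => Sob92.dv I (F.e a) (extChartAt I x) y := by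
  ext i j
  rw [gm_apply]; rfl

theorem abs_cd_gram (hv : UnitV F.e v) {x : M} {u : E} (hu : u ∈ (extChartAt I x).target) :
    |cd I x v u| = (√(F.gram x ((extChartAt I x).symm u)).det)⁻¹ := by
  rw [abs_cd_unit hu (hv _), gram_eq]; rfl

/-- **the Riemannian measure is the measure of any unit top form** -/
theorem isVol_iff (hv : UnitV F.e v) : F.IsVol ↔ F.μ = dens I v := by
  refine ⟨fun h => eq_dens_of_hasDens fun x => ?_, fun h x => ⟨(extChartAt I x).source, ?_⟩⟩
  · obtain ⟨O, hO⟩ := h x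
    refine ⟨O, _, hO, ?_⟩
    rintro _ ⟨y, hy, rfl⟩
    exact (abs_cd_gram hv ((extChartAt I x).map_source (hO.2.2.1 hy))).symm
  · rw [h]
    refine hasDens_congr
      (hasDens v (isOpen_extChartAt_source x) (mem_extChartAt_source x) subset_rfl) fun y hy => ?_
    rw [(extChartAt I x).image_source_eq_target] at hy
    exact abs_cd_gram hv hy

theorem UnitV.dens_eq (hv : UnitV F.e v) (h : F.IsVol) : dens I v = F.μ := ((isVol_iff hv).1 h).symm

theorem isVol_iff_rf : F.IsVol ↔ F.μ = dens I (rf F.e) := isVol_iff (unitV_rf (pre_sp F))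

theorem Ori.vol (ho : Ori I o) (F : Pre I M ι) : Ori I (Int54.volF o F.e) := ho.volF (pre_sp F) F.sm

theorem Ori.unit_vol (ho : Ori I o) (F : Pre I M ι) : UnitV F.e (Int54.volF o F.e) :=
  ho.unitV_volF (pre_sp F)

theorem Ori.dens_vol (ho : Ori I o) (h : F.IsVol) : dens I (Int54.volF o F.e) = F.μ :=
  (ho.unit_vol F).dens_eq h

/-- integrals of forms as integrals for the Riemannian measure -/
theorem UnitV.integOn_eq (hv : UnitV F.e v) (h : F.IsVol) (a : M → Ext E) (s : Set M) :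
    integOn I v a s = ∫ x in s, rat v a x ∂F.μ := by rw [integOn, hv.dens_eq h]

theorem UnitV.integ_eq (hv : UnitV F.e v) (h : F.IsVol) (a : M → Ext E) :
    integ I v a = ∫ x, rat v a x ∂F.μ := by rw [integ, hv.dens_eq h]

theorem UnitV.intOn_iff (hv : UnitV F.e v) (h : F.IsVol) (a : M → Ext E) (s : Set M) :
    IntOn I v a s ↔ IntegrableOn (rat v a) s F.μ := by rw [IntOn, hv.dens_eq h]

theorem Ori.integOn_vol (ho : Ori I o) (h : F.IsVol) (a : M → Ext E) {s : Set M}
    (hs : MeasurableSet s) : integOn I o a s = ∫ x in s, rat (Int54.volF o F.e) a x ∂F.μ := by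
  rw [← (ho.unit_vol F).integOn_eq h,
    integOn_congr_ori ho (ho.vol F) hs (ho.sameOn_volF (pre_sp F) s)]

theorem Ori.integ_vol (ho : Ori I o) (h : F.IsVol) (a : M → Ext E) :
    integ I o a = ∫ x, rat (Int54.volF o F.e) a x ∂F.μ := by
  rw [← integOn_univ, ho.integOn_vol h a MeasurableSet.univ, Measure.restrict_univ]

/-- a map matching the cometrics matches the Riemannian measures -/
theorem map_vol {F' : Pre J N κ} (h : finrank ℝ E = finrank ℝ E') (hF : F.IsVol) (hF' : F'.IsVol)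
    {f : N → M} {s : Set N} (hs : MeasurableSet s) (hd : ∀ w ∈ s, MDifferentiableAt J I f w)
    (hi : InjOn f s) (hc : ∀ y ∈ s, Co (fun a => mf J I f y (fv F'.e y a)) (fv F.e (f y))) :
    (F'.μ.restrict s).map f = F.μ.restrict (f '' s) := by
  rw [isVol_iff_rf.1 hF, isVol_iff_rf.1 hF', ← map_dens h _ hs hd hi,
    dens_congr_on (I := J) (a := rf F'.e) (b := pm J I f (rf F.e)) hs fun y hy =>
      (isU_rf (pre_sp F' y)).abs_eq ((isU_rf (pre_sp F (f y))).pb h (hc y hy))]

theorem map_vol_ph {F' : Pre J N κ} (h : finrank ℝ E = finrank ℝ E') (hF : F.IsVol)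
    (hF' : F'.IsVol) {φ : OpenPartialHomeomorph N M} (hd : ContMDiffOn J I ∞ φ φ.source)
    (hc : ∀ y ∈ φ.source, Co (fun a => mf J I φ y (fv F'.e y a)) (fv F.e (φ y))) :
    (F'.μ.restrict φ.source).map φ = F.μ.restrict φ.target := by
  rw [← φ.image_source_eq_target]
  exact map_vol h hF hF' φ.open_source.measurableSet (fun w hw =>
    (hd.contMDiffAt (φ.open_source.mem_nhds hw)).mdifferentiableAt (by simp)) φ.injOn hc

/-- `An.Iso` between Riemannian frames: the measure comes for free -/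
theorem iso_of_vol {F' : Pre J N ι} (h : finrank ℝ E = finrank ℝ E') (hF : F.IsVol)
    (hF' : F'.IsVol) {φ : OpenPartialHomeomorph N M} (hd : ContMDiffOn J I ∞ φ φ.source)
    (hd' : ContMDiffOn I J ∞ φ.symm φ.target)
    (he : ∀ a, ∀ y ∈ φ.source, mfderiv J I φ y (F'.e a y) = F.e a (φ y)) : An.Iso F' F φ :=
  ⟨hd, hd', he, map_vol_ph h hF hF' hd fun y hy => by
    rw [show (fun a => mf J I φ y (fv F'.e y a)) = fv F.e (φ y) from funext fun a => he a y hy]
    exact fun _ _ => rfl⟩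

end vol

section base
variable {F : Fr I M ι} {v o : M → Ext E}

theorem fr_isP (F : Fr I M ι) (x : M) : IsP (fv F.e x) (Matrix.of fun a b => F.P a b x) :=
  ⟨by ext a b; exact F.P_symm b a x, fun a => F.P_e a x, fun c hc => funext (F.P_ker x c hc)⟩

theorem UnitV.cf_mul {n : ℕ} (hv : UnitV F.e v) (h : finrank ℝ E = n) (Φ Ψ : Fin n → ι) (x : M) :
    cf F.e n v Φ x * cf F.e n v Ψ x = (Matrix.of fun i j => F.P (Φ i) (Ψ j) x).det :=
  (hv x).mul_eq h (fr_isP F x) Φ Ψ

theorem fr_rk (F : Fr I M ι) (x : M) : ∑ a, F.P a a x = finrank ℝ E := by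
  have h := (pre_sp F.toPre x).trace_prj (b := finBasis ℝ E)
  rw [← (fr_isP F x).eq_prj (pre_sp F.toPre x), Fintype.card_fin] at h
  exact h

/-- the components of a four-form -/
def oc (e : ι → (x : M) → TangentSpace I x) (v : M → Ext E) (a b c d : ι) : M → ℝ :=
  cf e 4 v ![a, b, c, d]

variable {e : ι → (x : M) → TangentSpace I x} (a b c d : ι) (x : M)

theorem oc_apply : oc e v a b c d x = evA E 4 (v x) ![fv e x a, fv e x b, fv e x c, fv e x d] := by
  refine congrArg (evA E 4 (v x)) (funext fun i => ?_)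
  fin_cases i <;> rfl

theorem oc_12 : oc e v a b c d x = -oc e v b a c d x := by
  rw [oc_apply, oc_apply, ← (evA E 4 (v x)).map_swap _ (show (0 : Fin 4) ≠ 1 by decide)]
  refine congrArg (evA E 4 (v x)) (funext fun i => ?_)
  fin_cases i <;> rfl

theorem oc_23 : oc e v a b c d x = -oc e v a c b d x := by
  rw [oc_apply, oc_apply, ← (evA E 4 (v x)).map_swap _ (show (1 : Fin 4) ≠ 2 by decide)]
  refine congrArg (evA E 4 (v x)) (funext fun i => ?_)
  fin_cases i <;> rfl

theorem oc_34 : oc e v a b c d x = -oc e v a b d c x := by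
  rw [oc_apply, oc_apply, ← (evA E 4 (v x)).map_swap _ (show (2 : Fin 4) ≠ 3 by decide)]
  refine congrArg (evA E 4 (v x)) (funext fun i => ?_)
  fin_cases i <;> rfl

theorem oc_P : ∑ k, F.P a k x * oc F.e v k b c d x = oc F.e v a b c d x := by
  let L : E →ₗ[ℝ] ℝ :=
    { toFun := fun w => evA E 4 (v x) ![w, fv F.e x b, fv F.e x c, fv F.e x d]
      map_add' := (evA E 4 (v x)).map_vecCons_add _
      map_smul' := (evA E 4 (v x)).map_vecCons_smul _ }
  have h := congrArg L ((fr_isP F x).fix a)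
  simp only [map_sum, map_smul, smul_eq_mul] at h
  simp only [oc_apply]
  exact h

theorem oc_sm (F : Pre I M ι) (hv : ∀ x, SmAt I v x) : An.Sm I (oc F.e v a b c d) :=
  fun x => contMDiffAt_cf le_rfl (fun i => F.sm i x) (hv x) _

theorem UnitV.oc_nm (hv : UnitV e v) (h : finrank ℝ E = 4) :
    ∑ a, ∑ b, ∑ c, ∑ d, oc e v a b c d x ^ 2 = 24 := hv.sum4 h x

theorem unitV_of_oc (h : finrank ℝ E = 4)
    (hs : ∀ x, ∑ a, ∑ b, ∑ c, ∑ d, oc e v a b c d x ^ 2 = 24) : UnitV e v := unitV_of_sum4 h hs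

theorem UnitV.rat_oc (hv : UnitV e v) (h : finrank ℝ E = 4) (w : M → Ext E) :
    rat v w x = (1 / 24 : ℝ) * ∑ a, ∑ b, ∑ c, ∑ d, oc e v a b c d x * oc e w a b c d x :=
  hv.rat_eq4 h w x

/-- components under a map that rotates the frames (`GEq.o`, any degree) -/
theorem cf_map {n : ℕ} (h : finrank ℝ E' = n) {f : N → M} {y : N}
    {e' : κ → (y : N) → TangentSpace J y} {v' : N → Ext E'} {U : ι → κ → ℝ}
    (he : ∀ b, mf J I f y (∑ a, U b a • fv e' y a) = fv e (f y) b)
    (hv : tp E' (pm J I f v y) = tp E' (v' y)) (Φ : Fin n → ι) :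
    cf e n v Φ (f y) = ∑ Ψ : Fin n → κ, (∏ i, U (Φ i) (Ψ i)) * cf e' n v' Ψ y := by
  simp only [cf]
  rw [← evA_mix, ← evA_congr_tp h hv, pm_apply, evA_pb]
  exact congrArg _ (funext fun i => (he _).symm)

theorem oc_map (h : finrank ℝ E' = 4) {f : N → M} {y : N}
    {e' : κ → (y : N) → TangentSpace J y} {v' : N → Ext E'} {U : ι → κ → ℝ}
    (he : ∀ b, mf J I f y (∑ a, U b a • fv e' y a) = fv e (f y) b)
    (hv : tp E' (pm J I f v y) = tp E' (v' y)) (b₁ b₂ b₃ b₄ : ι) :
    oc e v b₁ b₂ b₃ b₄ (f y) = ∑ a₁, ∑ a₂, ∑ a₃, ∑ a₄,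
      U b₁ a₁ * U b₂ a₂ * U b₃ a₃ * U b₄ a₄ * oc e' v' a₁ a₂ a₃ a₄ y := by
  rw [oc, cf_map h he hv, sum_fun4]
  simp only [Fin.prod_univ_four]
  rfl

/-- a rotation of the frame keeps the cometric -/
theorem co_of_rot {F' : Fr J N κ} {f : N → M} {y : N} {U : ι → κ → ℝ}
    (hU : ∀ a a', ∑ b, U b a * U b a' = F'.P a a' y)
    (he : ∀ b, mf J I f y (∑ a, U b a • fv F'.e y a) = fv e (f y) b) :
    Co (fun a => mf J I f y (fv F'.e y a)) (fv e (f y)) := by
  have h := ((fr_isP F' y).co_mix (U := Matrix.of U) (by ext a a'; exact hU a a')).map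
    (mf J I f y : E' →ₗ[ℝ] E)
  rwa [show (fun b => (mf J I f y : E' →ₗ[ℝ] E) (mix (Matrix.of U) (fv F'.e y) b)) = fv e (f y)
    from funext he] at h

/-- the fields `μ` and `o` of `GEq` for Riemannian measures and an orientation preserving map -/
theorem geq_mu_o {F' : Fr J N κ} {v' : N → Ext E'} (h : finrank ℝ E = 4) (h' : finrank ℝ E' = 4)
    (hF : F.IsVol) (hF' : F'.IsVol) (hv : UnitV F.e v) (hv' : UnitV F'.e v')
    {φ : OpenPartialHomeomorph N M} (hd : ContMDiffOn J I ∞ φ φ.source)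
    (hp : SameOn v' (pm J I φ v) φ.source) {U : N → ι → κ → ℝ}
    (hU : ∀ y ∈ φ.source, ∀ a a', ∑ b, U y b a * U y b a' = F'.P a a' y)
    (he : ∀ y ∈ φ.source, ∀ b, mfderiv J I φ y (∑ a, U y b a • F'.e a y) = F.e b (φ y)) :
    (F'.μ.restrict φ.source).map φ = F.μ.restrict φ.target ∧
      ∀ y ∈ φ.source, ∀ b₁ b₂ b₃ b₄, oc F.e v b₁ b₂ b₃ b₄ (φ y) = ∑ a₁, ∑ a₂, ∑ a₃, ∑ a₄,
        U y b₁ a₁ * U y b₂ a₂ * U y b₃ a₃ * U y b₄ a₄ * oc F'.e v' a₁ a₂ a₃ a₄ y :=
  ⟨map_vol_ph (h.trans h'.symm) hF hF' hd fun y hy => co_of_rot (hU y hy) (he y hy),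
    fun y hy => oc_map h' (he y hy) (tp_pm_unit (h.trans h'.symm) (hv _) (hv' _)
      (co_of_rot (hU y hy) (he y hy)) (hp y hy))⟩

variable {lam : Type} [Fintype lam]

/-- the background of a frame, a unit orientation form and a line -/
def base (F : Fr I M ι) (v : M → Ext E) (l : M → An.En lam) (il : An.En lam) : Base M ι lam :=
  ⟨F.P, oc F.e v, l, il⟩

theorem fr_pr (F : Fr I M ι) (x : M) : Wz78.Pr fun a b => F.P a b x := by
  have h := (fr_isP F x).mul (fr_isP F x)
  exact ⟨fun a b => F.P_symm a b x, fun a b => congrFun (congrFun h a) b⟩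

theorem base_ok (h : finrank ℝ E = 4) (hs : ∀ x, SmAt I v x) (hv : UnitV F.e v)
    {l : M → An.En lam} {il : An.En lam} (sl : An.Sm I l) (lsym : ∀ x, An.Sym (l x))
    (lidem : ∀ x, l x * l x = l x)
    (lrk : ∀ x, LinearMap.trace ℝ _ (l x : An.Eu lam →ₗ[ℝ] An.Eu lam) = 2) (ilsq : il * il = -1)
    (ilsk : An.Skw il) (ill : ∀ x, il * l x = l x * il) : (base F v l il).OK I :=
  ⟨F.P_sm, fun a b c d => oc_sm a b c d F.toPre hs, sl, fr_pr F,
    fun x => (fr_rk F x).trans (by rw [h]; norm_num), oc_12, oc_23, oc_34, oc_P,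
    fun x => hv.oc_nm x h, lsym, lidem, lrk, ilsq, ilsk, ill⟩

end base

end Crest.Agent.X212.Int54
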