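import Crest.Agent.X212.Int54.Defs
import Crest.Agent.X212.Sob92.Der

/-!
# X212/Int54/Stokes (helper54): change of variables for `integ`, Stokes, divergence
-/

set_option autoImplicit false
set_option linter.unusedSectionVars false

open Set Filter Topology Function Module MeasureTheory
open scoped ContDiff ENNReal Manifold
open Crest.Agent.R208 Crest.Agent.R208.F Crest.Agent.X212.Dr59

noncomputable section

namespace Crest.Agent.X212.Int54

variable {E : Type*} [NormedAddCommGroup E] [NormedSpace ℝ E] [FiniteDimensional ℝ E]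
  [MeasurableSpace E] [BorelSpace E]
  {H : Type*} [TopologicalSpace H] {I : ModelWithCorners ℝ E H} [I.Boundaryless]
  {M : Type*} [TopologicalSpace M] [ChartedSpace H M] [IsManifold I ∞ M]
  [MeasurableSpace M] [BorelSpace M] [SecondCountableTopology M]
  {E' : Type*} [NormedAddCommGroup E'] [NormedSpace ℝ E'] [FiniteDimensional ℝ E']
  [MeasurableSpace E'] [BorelSpace E']
  {H' : Type*} [TopologicalSpace H'] {J : ModelWithCorners ℝ E' H'} [J.Boundaryless]
  {N : Type*} [TopologicalSpace N] [ChartedSpace H' N] [IsManifold J ∞ N]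
  [MeasurableSpace N] [BorelSpace N] [SecondCountableTopology N]

section ori
variable {o o' : M → Ext E} {s : Set M}

theorem integOn_congr_left (hs : MeasurableSet s) (h : ∀ x ∈ s, tp E (o x) = tp E (o' x))
    (a : M → Ext E) : integOn I o a s = integOn I o' a s := by
  rw [integOn, integOn, dens_congr_on (I := I) (a := o) (b := o') hs fun x hx => by rw [h x hx]]
  refine setIntegral_congr_fun hs fun x hx => ?_
  show rat o a x = rat o' a x
  rw [rat, rat, h x hx]

theorem intOn_congr_left (hs : MeasurableSet s) (h : ∀ x ∈ s, tp E (o x) = tp E (o' x))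
    (a : M → Ext E) : IntOn I o a s ↔ IntOn I o' a s := by
  rw [IntOn, IntOn, IntegrableOn, IntegrableOn,
    dens_congr_on (I := I) (a := o) (b := o') hs fun x hx => by rw [h x hx]]
  refine integrableOn_congr_fun (fun x hx => ?_) hs
  show rat o a x = rat o' a x
  rw [rat, rat, h x hx]

theorem Ori.exists_mod (ho : Ori I o) (hs : MeasurableSet s) (hc : ContinuousOn (rat o o') s) :
    ∃ o'' : M → Ext E, Measurable (rat o o'') ∧ ∀ x ∈ s, tp E (o' x) = tp E (o'' x) := by
  classical
  refine ⟨s.piecewise (rat o o') 0 • o, ?_, fun x hx => ?_⟩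
  · have : rat o (s.piecewise (rat o o') 0 • o) = s.piecewise (rat o o') 0 := by
      funext x; rw [rat_fsmul, Pi.mul_apply, rat_self (ho.ne x), mul_one]
    rw [this]
    exact hc.measurable_piecewise continuousOn_const hs
  · simp only [Pi.smul_apply', map_smul, smul_eq_mul, piecewise_eq_of_mem _ _ _ hx,
      rat_mul_tp (ho.ne x)]

/-- local version of `Ori.integOn_ori`: `o'` only has to be good on `s` -/
theorem Ori.integOn_ori' (ho : Ori I o) (hs : MeasurableSet s) (hc : ContinuousOn (rat o o') s)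
    (h : SameOn o o' s) (a : M → Ext E) : integOn I o' a s = integOn I o a s := by
  obtain ⟨o'', h1, h2⟩ := ho.exists_mod hs hc
  rw [integOn_congr_left hs h2]
  exact ho.integOn_ori h1 hs (fun x hx => h2 x hx ▸ h x hx) a

theorem Ori.intOn_ori' (ho : Ori I o) (hs : MeasurableSet s) (hc : ContinuousOn (rat o o') s)
    (h : SameOn o o' s) (a : M → Ext E) : IntOn I o' a s ↔ IntOn I o a s := by
  obtain ⟨o'', h1, h2⟩ := ho.exists_mod hs hc
  rw [intOn_congr_left hs h2]
  exact ho.intOn_ori h1 hs (fun x hx => h2 x hx ▸ h x hx) a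

end ori

section cov
variable {f : N → M} {s : Set N} {o : M → Ext E} {o' : N → Ext E'}

/-- **change of variables**, orientation pulled back -/
theorem integOn_image (h : finrank ℝ E = finrank ℝ E') (hs : MeasurableSet s)
    (hd : ∀ w ∈ s, MDifferentiableAt J I f w) (hi : InjOn f s)
    (hj : ∀ w ∈ s, jac (mf J I f w) ≠ 0) (o a : M → Ext E) :
    integOn I o a (f '' s) = integOn J (pm J I f o) (pm J I f a) s := by
  rw [integOn, setIntegral_image h o hs hd hi]
  exact setIntegral_congr_fun hs fun w hw => (rat_pm h (hj w hw) o a).symm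

theorem intOn_image (h : finrank ℝ E = finrank ℝ E') (hs : MeasurableSet s)
    (hd : ∀ w ∈ s, MDifferentiableAt J I f w) (hi : InjOn f s)
    (hj : ∀ w ∈ s, jac (mf J I f w) ≠ 0) (o a : M → Ext E) :
    IntOn I o a (f '' s) ↔ IntOn J (pm J I f o) (pm J I f a) s := by
  rw [IntOn, integrableOn_image h o hs hd hi]
  exact integrableOn_congr_fun (fun w hw => (rat_pm h (hj w hw) o a).symm) hs

/-- **change of variables** for a smooth map, injective and orientation preserving on `s` -/
theorem integOn_map (h : finrank ℝ E = finrank ℝ E') (ho : Ori I o) (ho' : Ori J o')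
    (hs : MeasurableSet s) (hd : ∀ w ∈ s, ContMDiffAt J I ∞ f w) (hi : InjOn f s)
    (hp : SameOn o' (pm J I f o) s) (a : M → Ext E) :
    integOn I o a (f '' s) = integOn J o' (pm J I f a) s := by
  rw [integOn_image h hs (fun w hw => (hd w hw).mdifferentiableAt (by simp)) hi fun w hw => ?_]
  · exact ho'.integOn_ori' hs (fun w hw => (contMDiffAt_rat le_rfl (ho'.sm w) (ho'.ne w)
      ((ho.sm _).pm (hd w hw))).continuousAt.continuousWithinAt) hp _
  · have := right_ne_zero_of_mul (hp w hw).ne'
    rw [tp_pm h] at this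
    exact left_ne_zero_of_mul this

theorem intOn_map (h : finrank ℝ E = finrank ℝ E') (ho : Ori I o) (ho' : Ori J o')
    (hs : MeasurableSet s) (hd : ∀ w ∈ s, ContMDiffAt J I ∞ f w) (hi : InjOn f s)
    (hp : SameOn o' (pm J I f o) s) (a : M → Ext E) :
    IntOn I o a (f '' s) ↔ IntOn J o' (pm J I f a) s := by
  rw [intOn_image h hs (fun w hw => (hd w hw).mdifferentiableAt (by simp)) hi fun w hw => ?_]
  · exact ho'.intOn_ori' hs (fun w hw => (contMDiffAt_rat le_rfl (ho'.sm w) (ho'.ne w)
      ((ho.sm _).pm (hd w hw))).continuousAt.continuousWithinAt) hp _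
  · have := right_ne_zero_of_mul (hp w hw).ne'
    rw [tp_pm h] at this
    exact left_ne_zero_of_mul this

/-- an injective, orientation preserving smooth map; `a` vanishes off the range -/
theorem integ_map (h : finrank ℝ E = finrank ℝ E') (ho : Ori I o) (ho' : Ori J o')
    (hd : ContMDiff J I ∞ f) (hi : Injective f) (hp : SameOn o' (pm J I f o) univ)
    {a : M → Ext E} (ha : ∀ x, x ∉ range f → tp E (a x) = 0) :
    integ I o a = integ J o' (pm J I f a) := by
  rw [integ_eq_integOn ha, ← image_univ,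
    integOn_map h ho ho' MeasurableSet.univ (fun w _ => hd w) hi.injOn hp, integOn_univ]

/-- invariance under orientation preserving smooth bijections -/
theorem integ_bij (h : finrank ℝ E = finrank ℝ E') (ho : Ori I o) (ho' : Ori J o')
    (hd : ContMDiff J I ∞ f) (hi : Bijective f) (hp : SameOn o' (pm J I f o) univ)
    (a : M → Ext E) : integ I o a = integ J o' (pm J I f a) :=
  integ_map h ho ho' hd hi.1 hp fun x hx => (hx (hi.2 x)).elim

/-- two forms that correspond under an orientation preserving partial map -/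
theorem integ_eq_of_map (h : finrank ℝ E = finrank ℝ E') (ho : Ori I o) (ho' : Ori J o')
    (hs : MeasurableSet s) (hd : ∀ w ∈ s, ContMDiffAt J I ∞ f w) (hi : InjOn f s)
    (hp : SameOn o' (pm J I f o) s) {a : M → Ext E} {b : N → Ext E'}
    (ha : ∀ x, x ∉ f '' s → tp E (a x) = 0) (hb : ∀ y, y ∉ s → tp E' (b y) = 0)
    (e : ∀ y ∈ s, tp E' (pm J I f a y) = tp E' (b y)) : integ I o a = integ J o' b := by
  rw [integ_eq_integOn ha, integ_eq_integOn hb, integOn_map h ho ho' hs hd hi hp,
    integOn_congr hs e]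

end cov

/-! ### Stokes on a normed space -/

theorem integral_fderiv_zero {g : E → ℝ} (hg : ContDiff ℝ 1 g) (hc : HasCompactSupport g) (v : E)
    (μ : Measure E) [μ.IsAddHaarMeasure] : ∫ x, fderiv ℝ g x v ∂μ = 0 := by
  have h1 : Continuous fun x => fderiv ℝ g x v :=
    (hg.continuous_fderiv one_ne_zero).clm_apply continuous_const
  have h := integral_bilinear_hasLineDerivAt_right_eq_neg_left_of_integrable (μ := μ)
    (f := fun _ : E => (1 : ℝ)) (f' := fun _ => 0) (g := g) (g' := fun x => fderiv ℝ g x v) (v := v)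
    (B := ContinuousLinearMap.mul ℝ ℝ) (by simp)
    (by simpa using h1.integrable_of_hasCompactSupport (hc.fderiv_apply ℝ v))
    (by simpa using hg.continuous.integrable_of_hasCompactSupport hc)
    (fun x _ => by simpa using (hasFDerivAt_const (1 : ℝ) x).hasLineDerivAt v)
    (fun x _ => ((hg.differentiable one_ne_zero) x).hasFDerivAt.hasLineDerivAt v)
  simpa using h

theorem stokes_model {b : E → Ext E} (hb : ContDiff ℝ 1 b) (hc : HasCompactSupport b)
    (μ : Measure E) [μ.IsAddHaarMeasure] : ∫ x, tp E (F.d b x) ∂μ = 0 := by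
  let L : Fin (finrank ℝ E) → Ext E →L[ℝ] ℝ := fun i =>
    (tp E).comp (mulL E (io ((finBasis ℝ E).coord i)))
  have h1 : ∀ x, tp E (F.d b x) = ∑ i, fderiv ℝ (fun y => L i (b y)) x (finBasis ℝ E i) := by
    intro x
    rw [F.d, wd_apply, map_sum]
    refine Finset.sum_congr rfl fun i _ => ?_
    rw [show (fun y => L i (b y)) = L i ∘ b from rfl,
      ((L i).hasFDerivAt.comp x ((hb.differentiable one_ne_zero) x).hasFDerivAt).fderiv]
    rfl
  have h2 : ∀ i, ContDiff ℝ 1 fun y => L i (b y) := fun i => (L i).contDiff.comp hb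
  have h3 : ∀ i, HasCompactSupport fun y => L i (b y) := fun i => hc.comp_left (map_zero _)
  simp only [h1]
  rw [integral_finsetSum _ fun i _ => (((h2 i).continuous_fderiv one_ne_zero).clm_apply
    continuous_const).integrable_of_hasCompactSupport ((h3 i).fderiv_apply ℝ _)]
  exact Finset.sum_eq_zero fun i _ => integral_fderiv_zero (h2 i) (h3 i) _ μ

theorem ori_const {c : Ext E} (hc : tp E c ≠ 0) : Ori 𝓘(ℝ, E) fun _ : E => c :=
  ⟨fun _ => cAt_model.2 contDiffAt_const, fun _ => hc⟩

theorem dens_const (c : Ext E) :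
    dens 𝓘(ℝ, E) (fun _ : E => c) = ENNReal.ofReal |tp E c| • hm E := by
  rw [dens_model, withDensity_const]

/-! ### Stokes on a manifold -/

theorem dM_eq_zero {b : M → Ext E} {x : M} (hx : x ∉ tsupport b) : dM I b x = 0 := by
  rw [dM_congr (notMem_tsupport_iff_eventuallyEq.1 hx), dM_zero]; rfl

theorem support_dM (b : M → Ext E) : support (dM I b) ⊆ tsupport b := fun _ hx => by
  by_contra h; exact hx (dM_eq_zero h)

theorem tsupport_dM (b : M → Ext E) : tsupport (dM I b) ⊆ tsupport b :=
  closure_minimal (support_dM b) (isClosed_tsupport b)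

theorem hcs_dM {b : M → Ext E} (h : HasCompactSupport b) : HasCompactSupport (dM I b) :=
  h.mono' (support_dM b)

theorem cAt_of_tsupport {n : WithTop ℕ∞} {b : M → Ext E} (h : ∀ x ∈ tsupport b, CAt I n b x)
    (x : M) : CAt I n b x := by
  by_cases hx : x ∈ tsupport b
  · exact h x hx
  · exact cAt_zero.congr (notMem_tsupport_iff_eventuallyEq.1 hx)

variable (I) in
/-- the part of the chart target on which the sign of `o` is the sign at the centre -/
def posT (o : M → Ext E) (x : M) : Set E :=
  (extChartAt I x).target ∩ {u | 0 < tp E (o x) * cd I x o u}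

theorem Ori.isOpen_posT {o : M → Ext E} (ho : Ori I o) (x : M) : IsOpen (posT I o x) :=
  (continuousOn_const.mul (continuousOn_cd ho.c0 x)).isOpen_inter_preimage
    (isOpen_extChartAt_target x) isOpen_Ioi

theorem Ori.mem_posT {o : M → Ext E} (ho : Ori I o) (x : M) : extChartAt I x x ∈ posT I o x :=
  ⟨mem_extChartAt_target x, by
    show 0 < tp E (o x) * cd I x o (extChartAt I x x)
    rw [cd, rp_self]; exact mul_self_pos.2 (ho.ne x)⟩

theorem stokes_chart {o b : M → Ext E} (ho : Ori I o) (hb : ∀ x, CAt I 1 b x)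
    (hc : HasCompactSupport b) {x : M}
    (hx : tsupport b ⊆ (extChartAt I x).source ∩ extChartAt I x ⁻¹' posT I o x) :
    integ I o (dM I b) = 0 := by
  classical
  set e := extChartAt I x with he
  have hV := ho.isOpen_posT x
  have hK : IsCompact (e '' tsupport b) :=
    hc.isCompact.image_of_continuousOn ((continuousOn_extChartAt x).mono fun y hy => (hx hy).1)
  have h1 : integ I o (dM I b) = integOn 𝓘(ℝ, E) (fun _ : E => o x) (rp I x (dM I b)) (posT I o x) := by
    rw [integ_eq_integOn (s := e.symm '' posT I o x) fun y hy => ?_]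
    · exact integOn_map rfl ho (ori_const (ho.ne x)) hV.measurableSet
        (fun u hu => contMDiffAt_chart_symm hu.1) (e.symm.injOn.mono fun u hu => hu.1)
        (fun u hu => hu.2) _
    · rw [dM_eq_zero fun h => hy ⟨e y, (hx h).2, e.left_inv (hx h).1⟩, map_zero]
  let β : E → Ext E := (posT I o x).indicator (rp I x b)
  have h2 : ∀ u ∈ posT I o x, β =ᶠ[𝓝 u] rp I x b := fun u hu => by
    filter_upwards [hV.mem_nhds hu] with v hv using indicator_of_mem hv _
  have h3 : ∀ u, u ∉ e '' tsupport b → β u = 0 := fun u hu => by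
    by_cases hu' : u ∈ posT I o x
    · have : b (e.symm u) = 0 :=
        image_eq_zero_of_notMem_tsupport fun h => hu ⟨_, h, e.right_inv hu'.1⟩
      rw [(h2 u hu').self_of_nhds, rp, pm_apply, this, map_zero]
    · exact indicator_of_notMem hu' _
  have h4 : ∀ u, u ∉ posT I o x → β =ᶠ[𝓝 u] fun _ => 0 := fun u hu => by
    have : u ∈ (e '' tsupport b)ᶜ := by
      rintro ⟨y, hy, rfl⟩; exact hu (hx hy).2
    filter_upwards [hK.isClosed.isOpen_compl.mem_nhds this] with v hv using h3 v hv
  have h5 : ContDiff ℝ 1 β := contDiff_iff_contDiffAt.2 fun u => by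
    by_cases hu : u ∈ posT I o x
    · refine ContDiffAt.congr_of_eventuallyEq ?_ (h2 u hu)
      have := (hb (e.symm u)).chart (by simp) (e.map_target hu.1)
      rwa [e.right_inv hu.1] at this
    · exact contDiffAt_const.congr_of_eventuallyEq (h4 u hu)
  have h6 := stokes_model h5 (HasCompactSupport.intro hK h3) (hm E)
  rw [h1, integOn_congr (b := F.d β) hV.measurableSet fun u hu => by
    rw [rp_dM one_ne_zero hu.1 (hb _), d_congr (h2 u hu)],
    ← integ_eq_integOn fun u hu => by rw [d_congr (h4 u hu), d_const, map_zero],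
    integ, dens_const, integral_smul_measure]
  simp only [rat, integral_div, h6, zero_div, smul_zero]

variable (M) in
include I in
theorem sigmaCompact : SigmaCompactSpace M :=
  haveI : LocallyCompactSpace H := I.locallyCompactSpace
  haveI : LocallyCompactSpace M := ChartedSpace.locallyCompactSpace H M
  inferInstance

/-- finite smooth partition of unity on a compact set -/
theorem exists_pou [T2Space M] {κ : Type*} {K : Set M} (hK : IsCompact K) (U : κ → Set M)
    (hU : ∀ i, IsOpen (U i)) (hKU : K ⊆ ⋃ i, U i) :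
    ∃ (T : Finset κ) (ρ : κ → M → ℝ), (∀ i, ContMDiff I 𝓘(ℝ, ℝ) ∞ (ρ i)) ∧
      (∀ i, tsupport (ρ i) ⊆ U i) ∧ (∀ i x, 0 ≤ ρ i x) ∧ ∀ x ∈ K, ∑ i ∈ T, ρ i x = 1 := by
  have := sigmaCompact (I := I) M
  obtain ⟨ρ, hρ⟩ := SmoothPartitionOfUnity.exists_isSubordinate I hK.isClosed U hU hKU
  have hfin := ρ.locallyFinite.finite_nonempty_inter_compact hK
  refine ⟨hfin.toFinset, fun i => ρ i, fun i => (ρ i).contMDiff, hρ, ρ.nonneg, fun x hx => ?_⟩
  rw [← ρ.sum_eq_one hx]
  refine (finsum_eq_sum_of_support_subset _ fun i hi => ?_).symm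
  rw [Finite.coe_toFinset]
  exact ⟨x, hi, hx⟩

/-- **Stokes** -/
theorem stokes [T2Space M] {o b : M → Ext E} (ho : Ori I o) (hb : ∀ x, CAt I 1 b x)
    (hc : HasCompactSupport b) : integ I o (dM I b) = 0 := by
  obtain ⟨T, ρ, h1, h2, -, h4⟩ := exists_pou (I := I) hc.isCompact
    (fun x => (extChartAt I x).source ∩ extChartAt I x ⁻¹' posT I o x)
    (fun x => (continuousOn_extChartAt x).isOpen_inter_preimage (isOpen_extChartAt_source x)
      (ho.isOpen_posT x))
    fun x _ => mem_iUnion.2 ⟨x, mem_extChartAt_source x, ho.mem_posT x⟩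
  have e : b = ∑ i ∈ T, ρ i • b := by
    funext x
    rw [Finset.sum_apply]
    simp only [Pi.smul_apply']
    by_cases hx : x ∈ tsupport b
    · rw [← Finset.sum_smul, h4 x hx, one_smul]
    · simp [image_eq_zero_of_notMem_tsupport hx]
  have h5 : ∀ i x, CAt I 1 (ρ i • b) x := fun i x =>
    (hb x).fsmul (by simp) ((h1 i x).of_le (by simp))
  have h6 : ∀ i, HasCompactSupport (ρ i • b) := fun i => hc.smul_left
  have e' : dM I b = ∑ i ∈ T, dM I (ρ i • b) := by
    funext x
    conv_lhs => rw [e]
    rw [dM_sum one_ne_zero fun i _ => h5 i x, Finset.sum_apply]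
  rw [e', integ_sum fun i _ =>
    ho.intOn_of_hcs (fun x => (h5 i x).dM (by simp)) (hcs_dM (h6 i)) _]
  exact Finset.sum_eq_zero fun i _ => stokes_chart ho (h5 i) (h6 i)
    ((tsupport_smul_subset_left (ρ i) b).trans (h2 i))

theorem stokes_sm [T2Space M] {o b : M → Ext E} (ho : Ori I o) (hb : ∀ x, SmAt I b x)
    (hc : HasCompactSupport b) : integ I o (dM I b) = 0 :=
  stokes ho (fun x => (hb x).of_le (by simp)) hc

/-- Stokes on a closed manifold -/
theorem stokes_closed [T2Space M] [CompactSpace M] {o b : M → Ext E} (ho : Ori I o)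
    (hb : ∀ x, SmAt I b x) : integ I o (dM I b) = 0 :=
  stokes_sm ho hb (HasCompactSupport.of_compactSpace b)

/-- integration by parts: `∫ g • d b = - ∫ dg ∧ b` -/
theorem integ_fsmul_dM [T2Space M] {o b : M → Ext E} (ho : Ori I o) {g : M → ℝ}
    (hg : ContMDiff I 𝓘(ℝ, ℝ) ∞ g) (hc : HasCompactSupport g) (hb : ∀ x ∈ tsupport g, SmAt I b x) :
    integ I o (g • dM I b) = -integ I o (df I g * b) := by
  have h1 : ∀ x, SmAt I (g • b) x := cAt_of_tsupport fun x hx =>
    (hb x (tsupport_smul_subset_left g b hx)).fsmul le_rfl (hg x)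
  have h2 := stokes_sm ho h1 hc.smul_right
  have h0 : ∀ x, x ∉ tsupport g → df I g x = 0 := fun x hx =>
    df_eq_zero (notMem_tsupport_iff_eventuallyEq.1 hx)
  have e : dM I (g • b) = df I g * b + g • dM I b := by
    funext x
    by_cases hx : x ∈ tsupport g
    · exact dM_fsmul (by simp) ((hg x).mdifferentiableAt (by simp)) (hb x hx)
    · rw [dM_eq_zero (b := g • b) fun h => hx (tsupport_smul_subset_left g b h)]
      simp [h0 x hx, image_eq_zero_of_notMem_tsupport hx]
  have s1 : tsupport (df I g * b) ⊆ tsupport g :=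
    closure_minimal (fun x hx => by by_contra h; exact hx (by simp [h0 x h])) (isClosed_tsupport g)
  have i1 : IntOn I o (df I g * b) univ := ho.intOn_of_hcs (cAt_of_tsupport fun x hx =>
    ((smAt_df (hg x)).mul (hb x (s1 hx))).of_le (by simp))
    (hc.isCompact.of_isClosed_subset (isClosed_tsupport _) s1) _
  have i2 : IntOn I o (g • dM I b) univ := ho.intOn_of_hcs (cAt_of_tsupport fun x hx =>
    ((hb x (tsupport_smul_subset_left g _ hx)).dM.fsmul le_rfl (hg x)).of_le (by simp))
    hc.smul_right _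
  rw [e, integ_add i1 i2] at h2
  linarith

/-! ### contraction and divergence -/

variable (I) in
/-- contraction of a form with a vector field -/
def ic (X : (x : M) → TangentSpace I x) (a : M → Ext E) (x : M) : Ext E :=
  ii (show E from X x) (a x)

variable (I) in
/-- divergence of a vector field with respect to `o` -/
def dvg (o : M → Ext E) (X : (x : M) → TangentSpace I x) : M → ℝ := rat o (dM I (ic I X o))

theorem rp_ic (X : (x : M) → TangentSpace I x) (a : M → Ext E) {x : M} {u : E}
    (hu : u ∈ (extChartAt I x).target) : rp I x (ic I X a) u =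
      ii (Sob92.dv I X (extChartAt I x) ((extChartAt I x).symm u)) (rp I x a u) := by
  have h1 := (extChartAt I x).map_target hu
  have c1 := (contMDiffAt_chart_symm ((extChartAt I x).map_source h1)).mdifferentiableAt (by simp)
  have c2 := (contMDiffAt_chart h1).mdifferentiableAt (by simp)
  have h2 : mf I I ((extChartAt I x).symm ∘ extChartAt I x) ((extChartAt I x).symm u) =
      ContinuousLinearMap.id ℝ E := by
    rw [← mf_id (I := I) ((extChartAt I x).symm u)]
    refine mf_congr ?_
    filter_upwards [(isOpen_extChartAt_source x).mem_nhds h1] with v hv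
    exact (extChartAt I x).left_inv hv
  rw [mf_comp c1 c2, (extChartAt I x).right_inv hu] at h2
  rw [rp, rp, pm_apply, pm_apply, ii_pb, ic]
  congr 3
  exact (DFunLike.congr_fun h2 _).symm

theorem cAt_ic {n : WithTop ℕ∞} (hn : n ≤ (∞ : WithTop ℕ∞)) {X : (x : M) → TangentSpace I x}
    {a : M → Ext E} {x : M}
    (hX : ContMDiffAt I I.tangent ∞ (fun x => (⟨x, X x⟩ : TangentBundle I M)) x)
    (ha : CAt I n a x) : CAt I n (ic I X a) x := by
  let B : E →L[ℝ] Ext E →L[ℝ] Ext E := LinearMap.toContinuousLinearMap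
    ((LinearMap.toContinuousLinearMap :
      (Ext E →ₗ[ℝ] Ext E) ≃ₗ[ℝ] (Ext E →L[ℝ] Ext E)).toLinearMap ∘ₗ ii)
  have h1 : ContMDiffAt I 𝓘(ℝ, E) ∞ (Sob92.dv I X (extChartAt I x)) x :=
    Sob92.dv_smoothAt hX (contMDiffAt_chart (mem_extChartAt_source x))
  have h2 := contDiffAt_written hn (h1.of_le hn) (mem_extChartAt_source (I := 𝓘(ℝ, E)) _)
  rw [extChartAt_model_space_eq_id] at h2
  refine (B.isBoundedBilinearMap.contDiff.contDiffAt.comp₂ h2 ha).congr_of_eventuallyEq ?_
  filter_upwards [(isOpen_extChartAt_target x).mem_nhds (mem_extChartAt_target (I := I) x)]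
    with u hu using rp_ic X a hu

section dvg
variable {o : M → Ext E} {X : (x : M) → TangentSpace I x}

theorem Ori.contMDiffAt_dvg (ho : Ori I o) {x : M}
    (hX : ContMDiffAt I I.tangent ∞ (fun x => (⟨x, X x⟩ : TangentBundle I M)) x) :
    ContMDiffAt I 𝓘(ℝ, ℝ) ∞ (dvg I o X) x :=
  contMDiffAt_rat le_rfl (ho.sm x) (ho.ne x) (SmAt.dM (cAt_ic le_rfl hX (ho.sm x)))

theorem Ori.contMDiff_dvg (ho : Ori I o)
    (hX : ContMDiff I I.tangent ∞ fun x => (⟨x, X x⟩ : TangentBundle I M)) :
    ContMDiff I 𝓘(ℝ, ℝ) ∞ (dvg I o X) := fun x => ho.contMDiffAt_dvg (hX x)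

theorem rat_df_ic (g : M → ℝ) {x : M} (h : tp E (o x) ≠ 0) :
    rat o (df I g * ic I X o) x = Sob92.dv I X g x := by
  rw [rat, Pi.mul_apply, df, ic, tp_io_ii, mul_div_cancel_right₀ _ h]
  rfl

/-- **divergence theorem** -/
theorem Ori.integral_dv [T2Space M] (ho : Ori I o)
    (hX : ContMDiff I I.tangent ∞ fun x => (⟨x, X x⟩ : TangentBundle I M)) {g : M → ℝ}
    (hg : ContMDiff I 𝓘(ℝ, ℝ) ∞ g) (hc : HasCompactSupport g) :
    ∫ x, Sob92.dv I X g x ∂(dens I o) = -∫ x, dvg I o X x * g x ∂(dens I o) := by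
  have h := integ_fsmul_dM ho hg hc fun x _ => cAt_ic le_rfl (hX x) (ho.sm x)
  rw [integ, integ, rat_fsmul] at h
  simp only [rat_df_ic g (ho.ne _), Pi.mul_apply] at h
  rw [← neg_eq_iff_eq_neg, ← h]
  simp only [dvg, mul_comm]

end dvg

end Crest.Agent.X212.Int54
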