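import Crest.Agent.X212.Int54.Neck
import Crest.Agent.X212.Int54.Link
import Crest.Agent.X212.Cyf70.Cyl
import Crest.Agent.X212.Met55.Vol
import Crest.Agent.X212.Orx52.Prod

/-!
# X212/Int54/Cyl (helper54): the cylinder over a Riemannian frame; divergence as a form
-/

set_option autoImplicit false
set_option linter.unusedSectionVars false

open Set Filter Topology Function Module MeasureTheory
open scoped ContDiff ENNReal Manifold
open Crest.Agent.R208 Crest.Agent.R208.F Crest.Agent.X212.Dr59
open Crest.Agent.X212.An (HasDens Pre Fr)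
open Crest.Agent.X212.Cyf70 (IC ce cylP cyl)

noncomputable section

namespace Crest.Agent.X212.Int54

variable {E : Type} [NormedAddCommGroup E] [NormedSpace ℝ E] [FiniteDimensional ℝ E]
  [MeasurableSpace E] [BorelSpace E]
  {H : Type} [TopologicalSpace H] {I : ModelWithCorners ℝ E H} [I.Boundaryless]
  {M : Type} [TopologicalSpace M] [ChartedSpace H M] [IsManifold I ∞ M]
  [MeasurableSpace M] [BorelSpace M] [SecondCountableTopology M] [T2Space M]
  {ι : Type} [Fintype ι]

theorem pr_eq_pr {E' N : Type} [NormedAddCommGroup E'] [NormedSpace ℝ E'] [FiniteDimensional ℝ E']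
    (a : M → Ext E) (b : N → Ext E') : Orx52.pr a b = pr a b := rfl

theorem oR_eq_dt : Orx52.oR = dt := df_id

theorem UnitV.cd {F : Pre I M ι} {v : M → Ext E} (hv : UnitV F.e v) : Cd I v := fun x u hu => by
  have h1 : (extChartAt I x).symm u ∈ (chartAt H x).source := by
    simpa using (extChartAt I x).map_target hu
  refine ContinuousWithinAt.congr (f := fun u => Met55.rjb (finBasis ℝ E)
    (Met55.inc I x F.e ((extChartAt I x).symm u))) ?_
    (fun w hw => abs_cd_unit hw (hv _)) (abs_cd_unit hu (hv _))
  exact ((Met55.sm_rjb h1 (fun a => F.sm a _) (pre_sp F _)).continuousAt.comp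
    (contMDiffAt_chart_symm hu).continuousAt).continuousWithinAt

theorem UnitV.cy {e : ι → (x : M) → TangentSpace I x} {v : M → Ext E} (hv : UnitV e v) :
    UnitV (I := IC I) (ce e) (cy v) := fun z => (hv z.1).cyl rfl fun _ => rfl

/-- the cylinder over a Riemannian frame is Riemannian -/
theorem isVol_cylP [SigmaCompactSpace M] {F : Pre I M ι} (h : F.IsVol) : (cylP F).IsVol := by
  have hv := unitV_rf (pre_sp F)
  refine (isVol_iff (F := cylP F) hv.cy).2 ?_
  rw [dens_cy hv.cd, hv.dens_eq h]
  rfl

theorem isVol_cyl [SigmaCompactSpace M] {F : Fr I M ι} (h : F.IsVol) : (cyl F).IsVol :=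
  isVol_cylP h

/-- the divergences of the frame, read on a unit orientation form -/
theorem dv_eq_dvg {F : Fr I M ι} (h : F.IsVol) {v : M → Ext E} (ho : Ori I v) (hv : UnitV F.e v)
    (a : ι) (x : M) : F.dv a x = dvg I v (F.e a) x := by
  have := sigmaCompact (I := I) M
  rw [Met55.fr_dv]
  refine Met55.dvg_eq isOpen_univ (fun y _ => F.sm a y) (fun f h1 h2 _ => ?_)
    (fun y _ => ho.contMDiff_dvg (F.sm a) y) (mem_univ x)
  rw [← hv.dens_eq h]
  exact ho.integral_dv (F.sm a) h1 h2

end Crest.Agent.X212.Int54
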