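import Crest.Agent.X212.Int54.Stokes

/-!
# X212/Int54/Prod (helper54): products, Fubini, cylinders `Y × ℝ`
-/

set_option autoImplicit false
set_option linter.unusedSectionVars false

open Set Filter Topology Function Module MeasureTheory
open scoped ContDiff ENNReal Manifold
open Crest.Agent.R208 Crest.Agent.R208.F Crest.Agent.X212.Dr59

noncomputable section

namespace Crest.Agent.X212.Int54

variable {E : Type*} [NormedAddCommGroup E] [NormedSpace ℝ E] [FiniteDimensional ℝ E]
  {E' : Type*} [NormedAddCommGroup E'] [NormedSpace ℝ E'] [FiniteDimensional ℝ E']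

theorem tp_pb_lin (A : E →ₗ[ℝ] E) (c : Ext E) : tp E (pb A c) = LinearMap.det A * tp E c :=
  tp_pb_self A.toContinuousLinearMap c

/-- a functional that transforms like the determinant is a multiple of `tp` -/
theorem lin_eq_tp (f : Ext E →ₗ[ℝ] ℝ)
    (h : ∀ (A : E →ₗ[ℝ] E) c, f (pb A c) = LinearMap.det A * f c) (c : Ext E) :
    f c = tp E c * f (vol0 E) := by
  let g : Ext E →ₗ[ℝ] ℝ := f - f (vol0 E) • (tp E : Ext E →ₗ[ℝ] ℝ)
  have g1 : ∀ c, g c = f c - f (vol0 E) * tp E c := fun _ => rfl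
  have g2 : ∀ (A : E →ₗ[ℝ] E) c, g (pb A c) = LinearMap.det A * g c := fun A c => by
    rw [g1, g1, h, tp_pb_lin]; ring
  have g3 : g c = (0 : Ext E →ₗ[ℝ] ℝ) c := ext_lin (fun p l => by
    rw [LinearMap.zero_apply]
    by_cases hp : p = finrank ℝ E
    · subst hp
      have : ExteriorAlgebra.ιMulti ℝ _ l =
          pb ((finBasis ℝ E).equivFun.symm.toLinearMap ∘ₗ LinearMap.pi l) (vol0 E) := by
        rw [vol0, pb_iMulti]
        congr 1
        funext i
        ext v
        simp [Finsupp.single_apply]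
      rw [this, g2, g1, tp_vol0, mul_one, sub_self, mul_zero]
    · have h1 := g2 ((2 : ℝ) • LinearMap.id) (ExteriorAlgebra.ιMulti ℝ p l)
      have h2 : (fun i => l i ∘ₗ ((2 : ℝ) • LinearMap.id : E →ₗ[ℝ] E)) = fun i => (2 : ℝ) • l i := by
        funext i; ext v; simp
      rw [pb_iMulti, h2, AlternatingMap.map_smul_univ, map_smul, LinearMap.det_smul,
        LinearMap.det_id, mul_one, Finset.prod_const, Finset.card_univ, Fintype.card_fin,
        smul_eq_mul] at h1
      exact (mul_eq_mul_right_iff.1 h1).resolve_left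
        fun e => hp (pow_right_injective₀ two_pos (by norm_num) e)) c
  rw [g1, LinearMap.zero_apply, sub_eq_zero] at g3
  rw [g3, mul_comm]

/-- exterior product of forms on two spaces -/
@[elab_without_expected_type]
def xp (c : Ext E) (c' : Ext E') : Ext (E × E') :=
  pb (LinearMap.fst ℝ E E') c * pb (LinearMap.snd ℝ E E') c'

theorem pb_xp {G G' : Type*} [NormedAddCommGroup G] [NormedSpace ℝ G] [FiniteDimensional ℝ G]
    [NormedAddCommGroup G'] [NormedSpace ℝ G'] [FiniteDimensional ℝ G'] (A : G →ₗ[ℝ] E)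
    (B : G' →ₗ[ℝ] E') (c : Ext E) (c' : Ext E') :
    pb (A.prodMap B) (xp c c') = xp (pb A c) (pb B c') := by
  rw [xp, map_mul, pb_comp, pb_comp, xp, pb_comp, pb_comp]
  rfl

variable (E E') in
/-- the constant relating the chosen bases of `E`, `E'` and `E × E'` -/
def kap : ℝ := tp (E × E') (xp (vol0 E) (vol0 E'))

theorem tp_xp_pb (A : E →ₗ[ℝ] E) (B : E' →ₗ[ℝ] E') (c : Ext E) (c' : Ext E') :
    tp (E × E') (xp (pb A c) (pb B c')) =
      LinearMap.det A * LinearMap.det B * tp (E × E') (xp c c') := by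
  rw [← pb_xp, tp_pb_lin, LinearMap.det_prodMap]

theorem tp_xp (c : Ext E) (c' : Ext E') : tp (E × E') (xp c c') = kap E E' * (tp E c * tp E' c') := by
  have h1 := lin_eq_tp (E := E)
    { toFun := fun c => tp (E × E') (xp c c')
      map_add' := fun a b => by rw [xp, map_add, add_mul, map_add, xp, xp]
      map_smul' := fun r a => by rw [xp, map_smul, smul_mul_assoc, map_smul, xp, RingHom.id_apply] }
    (fun A c => by
      simpa only [pb_id, LinearMap.det_id, mul_one, LinearMap.coe_mk, AddHom.coe_mk]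
        using tp_xp_pb A .id c c') c
  have h2 := lin_eq_tp (E := E')
    { toFun := fun c => tp (E × E') (xp (vol0 E) c)
      map_add' := fun a b => by rw [xp, map_add, mul_add, map_add, xp, xp]
      map_smul' := fun r a => by rw [xp, map_smul, mul_smul_comm, map_smul, xp, RingHom.id_apply] }
    (fun A c => by
      simpa only [pb_id, LinearMap.det_id, one_mul, LinearMap.coe_mk, AddHom.coe_mk]
        using tp_xp_pb .id A (vol0 E) c) c'
  simp only [LinearMap.coe_mk, AddHom.coe_mk] at h1 h2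
  rw [h1, h2, kap]; ring

theorem mul_pb_snd {c' : Ext E'} (hc : ∀ l, io l * c' = 0) (C : Ext (E × E')) :
    C * pb (LinearMap.snd ℝ E E') c' = xp (pb (LinearMap.inl ℝ E E') C) c' := by
  induction C using ind with
  | h0 r => rw [xp, AlgHom.commutes, AlgHom.commutes]
  | hadd x y hx hy => rw [add_mul, hx, hy, xp, xp, xp, map_add, map_add, add_mul]
  | hmul x l hx =>
    have h1 : l = (l ∘ₗ LinearMap.inl ℝ E E') ∘ₗ LinearMap.fst ℝ E E' +
        (l ∘ₗ LinearMap.inr ℝ E E') ∘ₗ LinearMap.snd ℝ E E' := by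
      ext v <;> simp [Prod.mk_zero_zero]
    have h2 : io ((l ∘ₗ LinearMap.inr ℝ E E') ∘ₗ LinearMap.snd ℝ E E') *
        xp (pb (LinearMap.inl ℝ E E') x) c' = 0 := by
      rw [xp, ← mul_assoc, io_mul, mul_assoc, ← pb_io, ← map_mul, hc, map_zero, mul_zero]
    rw [mul_assoc, hx]
    conv_lhs => rw [h1, map_add, add_mul, h2, add_zero]
    rw [xp, xp, map_mul, map_mul, pb_io, pb_io, mul_assoc]

/-- only the restriction to the first factor matters against a top form of the second -/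
theorem tp_mul_snd {c' : Ext E'} (hc : ∀ l, io l * c' = 0) (C : Ext (E × E')) :
    tp (E × E') (C * pb (LinearMap.snd ℝ E E') c') =
      kap E E' * (tp E (pb (LinearMap.inl ℝ E E') C) * tp E' c') := by
  rw [mul_pb_snd hc, tp_xp]

theorem io_mul_io_real (l m : Module.Dual ℝ ℝ) : io l * io m = 0 := by
  have h : ∀ l : Module.Dual ℝ ℝ, l = l 1 • LinearMap.id := fun l => by ext; simp
  rw [h l, h m, map_smul, map_smul, smul_mul_smul_comm, io_sq, smul_zero]

variable [MeasurableSpace E] [BorelSpace E] [MeasurableSpace E'] [BorelSpace E']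

theorem addHaar_tp {n : ℕ} (b : Basis (Fin n) ℝ E) :
    b.addHaar = ENNReal.ofReal |tp E (ExteriorAlgebra.ιMulti ℝ n b.coord)| • hm E := by
  obtain rfl : n = finrank ℝ E := by rw [finrank_eq_card_basis b, Fintype.card_fin]
  rw [addHaar_eq b (Equiv.refl _), Basis.reindex_refl, tp_apply, evA_iMulti, Basis.det_apply,
    ← Matrix.det_transpose]
  rfl

theorem hm_prod : (hm E).prod (hm E') = ENNReal.ofReal |kap E E'| • hm (E × E') := by
  rw [hm, hm, ← Basis.prod_addHaar, ← Basis.addHaar_reindex _ finSumFinEquiv, addHaar_tp, kap, xp,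
    vol0, vol0, pb_iMulti, pb_iMulti, ExteriorAlgebra.ιMulti_mul_ιMulti]
  congr 5
  funext i
  refine Fin.addCases (fun i => ?_) (fun i => ?_) i
  · ext v <;> simp
  · ext v <;> simp

omit [MeasurableSpace E] [BorelSpace E] [MeasurableSpace E'] [BorelSpace E'] in
theorem kap_ne : kap E E' ≠ 0 := fun h => by
  borelize E E'
  have h1 := hm_prod (E := E) (E' := E')
  rw [h, abs_zero, ENNReal.ofReal_zero, zero_smul] at h1
  exact NeZero.ne _ h1

theorem volume_real : (volume : Measure ℝ) = ENNReal.ofReal |tp ℝ (io LinearMap.id)| • hm ℝ := by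
  refine (OrthonormalBasis.singleton (Fin 1) ℝ).addHaar_eq_volume.symm.trans
    ((addHaar_tp _).trans ?_)
  congr 4
  rw [ExteriorAlgebra.ιMulti_succ_apply, ExteriorAlgebra.ιMulti_zero_apply, mul_one]
  congr 1
  ext
  simp

theorem tp_io_id_ne : tp ℝ (io LinearMap.id) ≠ 0 := fun h => by
  have h1 := volume_real
  rw [h, abs_zero, ENNReal.ofReal_zero, zero_smul] at h1
  exact NeZero.ne _ h1

variable {H : Type*} [TopologicalSpace H] {I : ModelWithCorners ℝ E H} [I.Boundaryless]
  {M : Type*} [TopologicalSpace M] [ChartedSpace H M] [IsManifold I ∞ M]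
  [MeasurableSpace M] [BorelSpace M] [SecondCountableTopology M]
  {H' : Type*} [TopologicalSpace H'] {J : ModelWithCorners ℝ E' H'} [J.Boundaryless]
  {N : Type*} [TopologicalSpace N] [ChartedSpace H' N] [IsManifold J ∞ N]
  [MeasurableSpace N] [BorelSpace N] [SecondCountableTopology N]

/-- exterior product of forms on two manifolds -/
@[elab_without_expected_type]
def pr (a : M → Ext E) (b : N → Ext E') (z : M × N) : Ext (E × E') := xp (a z.1) (b z.2)

section pr
variable {a o : M → Ext E} {b o' : N → Ext E'}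

theorem pm_fst (a : M → Ext E) (z : M × N) :
    pm (I.prod J) I Prod.fst a z = pb (LinearMap.fst ℝ E E') (a z.1) := by
  rw [pm_apply, mf_of_has (hasMFDerivAt_fst z)]; rfl

theorem pm_snd (b : N → Ext E') (z : M × N) :
    pm (I.prod J) J Prod.snd b z = pb (LinearMap.snd ℝ E E') (b z.2) := by
  rw [pm_apply, mf_of_has (hasMFDerivAt_snd z)]; rfl

variable (I J) in
theorem pr_eq (a : M → Ext E) (b : N → Ext E') :
    pr a b = pm (I.prod J) I Prod.fst a * pm (I.prod J) J Prod.snd b := by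
  funext z; rw [Pi.mul_apply, pm_fst, pm_snd]; rfl

theorem tp_pr (a : M → Ext E) (b : N → Ext E') (z : M × N) :
    tp (E × E') (pr a b z) = kap E E' * (tp E (a z.1) * tp E' (b z.2)) := tp_xp _ _

theorem rat_pr (o a : M → Ext E) (o' b : N → Ext E') (z : M × N) :
    rat (pr o o') (pr a b) z = rat o a z.1 * rat o' b z.2 := by
  rw [rat, tp_pr, tp_pr, mul_div_mul_left _ _ kap_ne, rat, rat, div_mul_div_comm]

theorem cAt_pr {n : WithTop ℕ∞} (hn : n ≤ (∞ : WithTop ℕ∞)) {z : M × N} (ha : CAt I n a z.1)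
    (hb : CAt J n b z.2) : CAt (I.prod J) n (pr a b) z := by
  rw [pr_eq I J]
  exact (CAt.pm hn contMDiffAt_fst ha).mul (CAt.pm hn contMDiffAt_snd hb)

theorem Ori.pr (ho : Ori I o) (ho' : Ori J o') : Ori (I.prod J) (pr o o') :=
  ⟨fun z => cAt_pr le_rfl (ho.sm z.1) (ho'.sm z.2), fun z => by
    rw [tp_pr]; exact mul_ne_zero kap_ne (mul_ne_zero (ho.ne _) (ho'.ne _))⟩

theorem SameOn.pr {s : Set M} {t : Set N} (h : SameOn o a s) (h' : SameOn o' b t) :
    SameOn (pr o o') (pr a b) (s ×ˢ t) := sameOn_of_rat_pos fun z hz => by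
  rw [rat_pr]; exact mul_pos (h.rat_pos hz.1) (h'.rat_pos hz.2)

/-- pull-back by a product of maps -/
theorem pm_pr {G G' : Type*} [NormedAddCommGroup G] [NormedSpace ℝ G] [FiniteDimensional ℝ G]
    [NormedAddCommGroup G'] [NormedSpace ℝ G'] [FiniteDimensional ℝ G']
    {K : Type*} [TopologicalSpace K] {I₁ : ModelWithCorners ℝ G K}
    {K' : Type*} [TopologicalSpace K'] {J₁ : ModelWithCorners ℝ G' K'}
    {P : Type*} [TopologicalSpace P] [ChartedSpace K P]
    {Q : Type*} [TopologicalSpace Q] [ChartedSpace K' Q] {f : P → M} {g : Q → N} {z : P × Q}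
    (hf : MDifferentiableAt I₁ I f z.1) (hg : MDifferentiableAt J₁ J g z.2)
    (a : M → Ext E) (b : N → Ext E') :
    pm (I₁.prod J₁) (I.prod J) (Prod.map f g) (pr a b) z = pr (pm I₁ I f a) (pm J₁ J g b) z := by
  rw [pm_apply, mf, mfderiv_prodMap hf hg]
  exact pb_xp (mf I₁ I f z.1 : G →ₗ[ℝ] E) (mf J₁ J g z.2 : G' →ₗ[ℝ] E') _ _

theorem cd_pr (x : M) (y : N) {u : E × E'} (h1 : u.1 ∈ (extChartAt I x).target)
    (h2 : u.2 ∈ (extChartAt J y).target) :
    cd (I.prod J) (x, y) (pr a b) u = kap E E' * (cd I x a u.1 * cd J y b u.2) := by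
  have h := pm_pr ((contMDiffAt_chart_symm h1).mdifferentiableAt (by simp))
    ((contMDiffAt_chart_symm h2).mdifferentiableAt (by simp)) a b
  rw [← modelWithCornersSelf_prod, chartedSpaceSelf_prod] at h
  rw [cd, cd, cd, ← tp_pr (rp I x a) (rp J y b) u, rp, extChartAt_prod]
  exact congrArg _ h

variable (I) in
/-- the density of `a` is continuous -/
def Cd (a : M → Ext E) : Prop :=
  ∀ x, ContinuousOn (fun u => |cd I x a u|) (extChartAt I x).target

theorem cd_of_cAt (ha : ∀ x, CAt I 0 a x) : Cd I a := fun x => (continuousOn_cd ha x).abs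

theorem Ori.cd (ho : Ori I o) : Cd I o := cd_of_cAt ho.c0

theorem Cd.locFin (ha : Cd I a) : IsLocallyFiniteMeasure (dens I a) := by
  refine ⟨fun x => ?_⟩
  have hx := mem_extChartAt_target (I := I) x
  obtain ⟨K, hK, hxK, hKt⟩ := exists_compact_subset (isOpen_extChartAt_target (I := I) x) hx
  have hs : MeasurableSet ((extChartAt I x).source ∩ extChartAt I x ⁻¹' K) :=
    ms_inter (continuousOn_extChartAt x) (ms_source x) hK.measurableSet
  refine ⟨(extChartAt I x).source ∩ extChartAt I x ⁻¹' K, inter_mem (extChartAt_source_mem_nhds x)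
    ((continuousAt_extChartAt x).preimage_mem_nhds (mem_interior_iff_mem_nhds.1 hxK)), ?_⟩
  rw [dens_apply a hs inter_subset_left, cm_apply x a hs]
  have h1 : (extChartAt I x).target ∩ (extChartAt I x).symm ⁻¹'
      ((extChartAt I x).source ∩ extChartAt I x ⁻¹' K) ⊆ K := fun u hu => by
    have := hu.2.2
    rwa [mem_preimage, (extChartAt I x).right_inv hu.1] at this
  refine (lintegral_mono_set h1).trans_lt ?_
  exact (((ha x).mono hKt).integrableOn_compact hK).lintegral_lt_top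

/-- **the measure of an exterior product is the product measure** -/
theorem dens_pr (ha : Cd I a) (hb : Cd J b) :
    dens (I.prod J) (pr a b) = (dens I a).prod (dens J b) := by
  have := ha.locFin
  have := hb.locFin
  symm
  refine IsDens.eq_dens fun ⟨x, y⟩ => ?_
  have e1 : (extChartAt (I.prod J) (x, y)).source =
      (extChartAt I x).source ×ˢ (extChartAt J y).source := by rw [extChartAt_prod]; rfl
  rw [e1, ← Measure.prod_restrict]
  refine Measure.prod_eq fun s t hs ht => ?_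
  have e2 : (extChartAt (I.prod J) (x, y)).target ∩ (extChartAt (I.prod J) (x, y)).symm ⁻¹' s ×ˢ t =
      ((extChartAt I x).target ∩ (extChartAt I x).symm ⁻¹' s) ×ˢ
        ((extChartAt J y).target ∩ (extChartAt J y).symm ⁻¹' t) := by
    rw [extChartAt_prod]
    ext u
    exact ⟨fun h => ⟨⟨h.1.1, h.2.1⟩, h.1.2, h.2.2⟩, fun h => ⟨⟨h.1.1, h.2.1⟩, h.1.2, h.2.2⟩⟩
  rw [dens_restrict, dens_restrict, cm_apply _ _ (hs.prod ht), cm_apply _ _ hs, cm_apply _ _ ht, e2,
    ← lintegral_prod_mul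
      (((ha x).mono inter_subset_left).aemeasurable (ms_cimg x hs)).ennreal_ofReal
      (((hb y).mono inter_subset_left).aemeasurable (ms_cimg y ht)).ennreal_ofReal,
    Measure.prod_restrict, hm_prod, Measure.restrict_smul, lintegral_smul_measure, smul_eq_mul,
    ← lintegral_const_mul' _ _ ENNReal.ofReal_ne_top]
  refine setLIntegral_congr_fun ((ms_cimg x hs).prod (ms_cimg y ht)) fun u hu => ?_
  rw [cd_pr x y hu.1.1 hu.2.1, abs_mul, abs_mul, ENNReal.ofReal_mul (abs_nonneg _),
    ENNReal.ofReal_mul (abs_nonneg _)]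

/-- **Fubini** for exterior products; no hypothesis on `a`, `b` -/
theorem integOn_pr (ho : Cd I o) (ho' : Cd J o') (a : M → Ext E) (b : N → Ext E') (s : Set M)
    (t : Set N) : integOn (I.prod J) (pr o o') (pr a b) (s ×ˢ t) =
      integOn I o a s * integOn J o' b t := by
  have := ho.locFin
  have := ho'.locFin
  rw [integOn, dens_pr ho ho', ← Measure.prod_restrict, integOn, integOn, ← integral_prod_mul]
  simp only [rat_pr]

theorem integ_pr (ho : Cd I o) (ho' : Cd J o') (a : M → Ext E) (b : N → Ext E') :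
    integ (I.prod J) (pr o o') (pr a b) = integ I o a * integ J o' b := by
  rw [← integOn_univ, ← univ_prod_univ, integOn_pr ho ho', integOn_univ, integOn_univ]

/-- **Fubini** -/
theorem integOn_prod (ho : Cd I o) (ho' : Cd J o') {c : M × N → Ext (E × E')} {s : Set M}
    {t : Set N} (hc : IntOn (I.prod J) (pr o o') c (s ×ˢ t)) :
    integOn (I.prod J) (pr o o') c (s ×ˢ t) =
      ∫ y in t, ∫ x in s, rat (pr o o') c (x, y) ∂(dens I o) ∂(dens J o') := by
  have := ho.locFin
  have := ho'.locFin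
  rw [IntOn, IntegrableOn, dens_pr ho ho', ← Measure.prod_restrict] at hc
  rw [integOn, dens_pr ho ho', ← Measure.prod_restrict, integral_prod_symm _ hc]

variable (I J) in
/-- restriction to the slice `M × {y}` -/
def sl (y : N) (c : M × N → Ext (E × E')) : M → Ext E := pm I (I.prod J) (fun x => (x, y)) c

theorem sl_apply (y : N) (c : M × N → Ext (E × E')) (x : M) :
    sl I J y c x = pb (LinearMap.inl ℝ E E') (c (x, y)) := by
  rw [sl, pm_apply, mf, mfderiv_prod_left]; rfl

theorem rat_mul_snd (hb : ∀ y l, io l * b y = 0) (c : M × N → Ext (E × E')) (x : M) (y : N) :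
    rat (pr o o') (c * pm (I.prod J) J Prod.snd b) (x, y) =
      rat o (sl I J y c) x * rat o' b y := by
  rw [rat, Pi.mul_apply, pm_snd, tp_mul_snd (hb _), tp_pr, mul_div_mul_left _ _ kap_ne, rat, rat,
    div_mul_div_comm, sl_apply]

/-- **Fubini** by slices -/
theorem integOn_mul_snd (ho : Cd I o) (ho' : Cd J o') (hb : ∀ y l, io l * b y = 0)
    {c : M × N → Ext (E × E')} {s : Set M} {t : Set N}
    (hc : IntOn (I.prod J) (pr o o') (c * pm (I.prod J) J Prod.snd b) (s ×ˢ t)) :
    integOn (I.prod J) (pr o o') (c * pm (I.prod J) J Prod.snd b) (s ×ˢ t) =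
      ∫ y in t, integOn I o (sl I J y c) s * rat o' b y ∂(dens J o') := by
  rw [integOn_prod ho ho' hc]
  simp only [rat_mul_snd hb, integral_mul_const, integOn]

end pr

/-! ### the factor `ℝ` -/

/-- the form `dt` on the real line -/
def dt : ℝ → Ext ℝ := fun _ => io LinearMap.id

theorem ori_dt : Ori 𝓘(ℝ, ℝ) dt := ori_const tp_io_id_ne

theorem dens_dt : dens 𝓘(ℝ, ℝ) dt = volume := (dens_const _).trans volume_real.symm

theorem df_real (χ : ℝ → ℝ) : df 𝓘(ℝ, ℝ) χ = deriv χ • dt := by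
  funext t
  rw [df, mf_eq_fderiv, Pi.smul_apply', dt, ← map_smul]
  congr 1
  ext
  simp

theorem df_id : df 𝓘(ℝ, ℝ) (id : ℝ → ℝ) = dt := by
  rw [df_real]; funext t; simp

theorem rat_dt (g : ℝ → ℝ) : rat dt (g • dt) = g := by
  funext t; rw [rat_fsmul, Pi.mul_apply, rat_self (ori_dt.ne t), mul_one]

theorem integOn_dt (g : ℝ → ℝ) (s : Set ℝ) : integOn 𝓘(ℝ, ℝ) dt (g • dt) s = ∫ t in s, g t := by
  rw [integOn, rat_dt, dens_dt]

section cyl
variable {o β : M → Ext E}

/-- the orientation `o ∧ dt` of the cylinder -/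
@[elab_without_expected_type]
abbrev cy (o : M → Ext E) : M × ℝ → Ext (E × ℝ) := pr o dt

theorem Ori.cy (ho : Ori I o) : Ori (I.prod 𝓘(ℝ, ℝ)) (cy o) := ho.pr ori_dt

theorem dens_cy (ho : Cd I o) : dens (I.prod 𝓘(ℝ, ℝ)) (cy o) = (dens I o).prod volume := by
  rw [dens_pr ho ori_dt.cd, dens_dt]

theorem df_snd {χ : ℝ → ℝ} (hχ : Differentiable ℝ χ) :
    df (I.prod 𝓘(ℝ, ℝ)) (fun z : M × ℝ => χ z.2) =
      pm (I.prod 𝓘(ℝ, ℝ)) 𝓘(ℝ, ℝ) Prod.snd (deriv χ • dt) := by
  funext z
  rw [← df_real, pm_df mdifferentiableAt_snd (hχ _).mdifferentiableAt]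
  rfl

/-- slices: `∫ c ∧ d(χ ∘ t) = ∫ χ'(t) ∫_{Y × t} c` -/
theorem integOn_mul_df (ho : Cd I o) {χ : ℝ → ℝ} (hχ : Differentiable ℝ χ)
    {c : M × ℝ → Ext (E × ℝ)} {s : Set M} {t : Set ℝ}
    (hc : IntOn (I.prod 𝓘(ℝ, ℝ)) (cy o) (c * df (I.prod 𝓘(ℝ, ℝ)) fun z : M × ℝ => χ z.2) (s ×ˢ t)) :
    integOn (I.prod 𝓘(ℝ, ℝ)) (cy o) (c * df (I.prod 𝓘(ℝ, ℝ)) fun z : M × ℝ => χ z.2) (s ×ˢ t) =
      ∫ y in t, integOn I o (sl I 𝓘(ℝ, ℝ) y c) s * deriv χ y := by
  rw [df_snd hχ] at hc ⊢
  rw [integOn_mul_snd ho ori_dt.cd (fun y l => by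
    rw [Pi.smul_apply', dt, mul_smul_comm, io_mul_io_real, smul_zero]) hc, rat_dt, dens_dt]

/-- the neck formula: `∫ π^*β ∧ d(χ ∘ t) = ∫ β · ∫ χ'` -/
theorem integ_neck (ho : Cd I o) (β : M → Ext E) {χ : ℝ → ℝ} (hχ : Differentiable ℝ χ) :
    integ (I.prod 𝓘(ℝ, ℝ)) (cy o) (pm (I.prod 𝓘(ℝ, ℝ)) I Prod.fst β *
      df (I.prod 𝓘(ℝ, ℝ)) fun z : M × ℝ => χ z.2) = integ I o β * ∫ t, deriv χ t := by
  rw [df_snd hχ, ← pr_eq, integ_pr ho ori_dt.cd, ← integOn_univ dt, integOn_dt,
    Measure.restrict_univ]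

end cyl

end Crest.Agent.X212.Int54
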