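import Crest.Agent.X212.Int54.Jac
import Crest.Agent.X212.Dr59.Defs

/-!
# X212/Int54/Dens (helper54): the measure `dens I a = |top part of a|` of a form `a`

No orientation, no regularity of `a` is needed for the definition, the chart formula
`dens_restrict` and the change of variables `dens_image`, `map_dens`, `setIntegral_image`.
-/

set_option autoImplicit false
set_option linter.unusedSectionVars false

open Set Filter Topology Function Module MeasureTheory
open scoped ContDiff ENNReal Manifold
open Crest.Agent.R208.F Crest.Agent.X212.Dr59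

noncomputable section

namespace Crest.Agent.X212.Int54

theorem ms_inter {α β : Type*} [TopologicalSpace α] [MeasurableSpace α] [OpensMeasurableSpace α]
    [TopologicalSpace β] [MeasurableSpace β] [BorelSpace β] {f : α → β} {s : Set α} {t : Set β}
    (hf : ContinuousOn f s) (hs : MeasurableSet s) (ht : MeasurableSet t) :
    MeasurableSet (s ∩ f ⁻¹' t) := by
  have h1 : MeasurableSet ((s.domRestrict f) ⁻¹' t) := hf.domRestrict.measurable ht
  have h2 := hs.subtype_image h1
  convert h2 using 1
  ext x
  simp [and_comm]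

variable {E : Type*} [NormedAddCommGroup E] [NormedSpace ℝ E] [FiniteDimensional ℝ E]
  [MeasurableSpace E] [BorelSpace E]
  {H : Type*} [TopologicalSpace H] {I : ModelWithCorners ℝ E H} [I.Boundaryless]
  {M : Type*} [TopologicalSpace M] [ChartedSpace H M] [IsManifold I ∞ M]
  [MeasurableSpace M] [BorelSpace M]
  {E' : Type*} [NormedAddCommGroup E'] [NormedSpace ℝ E'] [FiniteDimensional ℝ E']
  [MeasurableSpace E'] [BorelSpace E']
  {H' : Type*} [TopologicalSpace H'] {J : ModelWithCorners ℝ E' H'} [J.Boundaryless]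
  {N : Type*} [TopologicalSpace N] [ChartedSpace H' N] [IsManifold J ∞ N]
  [MeasurableSpace N] [BorelSpace N]

theorem ms_source (x : M) : MeasurableSet (extChartAt I x).source :=
  (isOpen_extChartAt_source x).measurableSet

theorem ms_target (x : M) : MeasurableSet (extChartAt I x).target :=
  (isOpen_extChartAt_target x).measurableSet

variable (I) in
/-- the density of `a` in the chart at `x` -/
def cd (x : M) (a : M → Ext E) (y : E) : ℝ := tp E (rp I x a y)

variable (I) in
/-- the measure of `a` in the chart at `x`, on the model space -/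
def cn (x : M) (a : M → Ext E) : Measure E :=
  ((hm E).restrict (extChartAt I x).target).withDensity fun y => ENNReal.ofReal |cd I x a y|

variable (I) in
/-- the measure of `a` in the chart at `x` -/
def cm (x : M) (a : M → Ext E) : Measure M := (cn I x a).map (extChartAt I x).symm

theorem aemeas_symm (x : M) (a : M → Ext E) : AEMeasurable (extChartAt I x).symm (cn I x a) :=
  (((continuousOn_extChartAt_symm x).aemeasurable (ms_target x))).mono_ac
    (withDensity_absolutelyContinuous _ _)

theorem ms_cimg (x : M) {s : Set M} (hs : MeasurableSet s) :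
    MeasurableSet ((extChartAt I x).target ∩ (extChartAt I x).symm ⁻¹' s) :=
  ms_inter (continuousOn_extChartAt_symm x) (ms_target x) hs

theorem cm_apply (x : M) (a : M → Ext E) {s : Set M} (hs : MeasurableSet s) :
    cm I x a s = ∫⁻ y in (extChartAt I x).target ∩ (extChartAt I x).symm ⁻¹' s,
      ENNReal.ofReal |cd I x a y| ∂(hm E) := by
  rw [cm, Measure.map_apply_of_aemeasurable (aemeas_symm x a) hs]
  have h1 : cn I x a ((extChartAt I x).symm ⁻¹' s) =
      cn I x a ((extChartAt I x).target ∩ (extChartAt I x).symm ⁻¹' s) := by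
    refine measure_congr ?_
    have h2 : ∀ᵐ y ∂(cn I x a), y ∈ (extChartAt I x).target :=
      (withDensity_absolutelyContinuous _ _).ae_le (ae_restrict_mem (ms_target x))
    filter_upwards [h2] with y hy
    exact propext ⟨fun h => ⟨hy, h⟩, fun h => h.2⟩
  rw [h1, cn, withDensity_apply _ (ms_cimg x hs), Measure.restrict_restrict (ms_cimg x hs),
    inter_eq_left.2 inter_subset_left]

theorem cm_inter (x : M) (a : M → Ext E) {s : Set M} (hs : MeasurableSet s) :
    cm I x a (s ∩ (extChartAt I x).source) = cm I x a s := by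
  rw [cm_apply x a hs, cm_apply x a (hs.inter (ms_source x))]
  congr 2
  ext y
  exact ⟨fun h => ⟨h.1, h.2.1⟩, fun h => ⟨h.1, h.2, (extChartAt I x).map_target h.1⟩⟩

theorem tp_pm (h : finrank ℝ E = finrank ℝ E') (f : N → M) (a : M → Ext E) (y : N) :
    tp E' (pm J I f a y) = jac (mf J I f y) * tp E (a (f y)) := tp_pb h _ _

section loc
variable {f : N → M} {s : Set N} {x : M} {z : N}

theorem written_image (hz : s ⊆ (extChartAt J z).source) (hx : f '' s ⊆ (extChartAt I x).source) :
    (extChartAt I x ∘ f ∘ (extChartAt J z).symm) ''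
      ((extChartAt J z).target ∩ (extChartAt J z).symm ⁻¹' s) =
      (extChartAt I x).target ∩ (extChartAt I x).symm ⁻¹' (f '' s) := by
  ext u
  constructor
  · rintro ⟨v, hv, rfl⟩
    have h1 := hx (mem_image_of_mem f hv.2)
    refine ⟨(extChartAt I x).map_source h1, ?_⟩
    rw [mem_preimage, comp_apply, comp_apply, (extChartAt I x).left_inv h1]
    exact mem_image_of_mem f hv.2
  · rintro ⟨hu, w, hw, e⟩
    refine ⟨extChartAt J z w, ⟨(extChartAt J z).map_source (hz hw), ?_⟩, ?_⟩
    · rw [mem_preimage, (extChartAt J z).left_inv (hz hw)]; exact hw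
    · rw [comp_apply, comp_apply, (extChartAt J z).left_inv (hz hw), e,
        (extChartAt I x).right_inv hu]

theorem written_injOn (hi : InjOn f s) (hx : f '' s ⊆ (extChartAt I x).source) :
    InjOn (extChartAt I x ∘ f ∘ (extChartAt J z).symm)
      ((extChartAt J z).target ∩ (extChartAt J z).symm ⁻¹' s) := by
  intro u hu v hv e
  have h1 := (extChartAt I x).injOn (hx (mem_image_of_mem f hu.2)) (hx (mem_image_of_mem f hv.2)) e
  exact (extChartAt J z).symm.injOn hu.1 hv.1 (hi hu.2 hv.2 h1)

theorem written_mdiff (hd : ∀ w ∈ s, MDifferentiableAt J I f w)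
    (hx : f '' s ⊆ (extChartAt I x).source) {u : E'}
    (hu : u ∈ (extChartAt J z).target ∩ (extChartAt J z).symm ⁻¹' s) :
    MDifferentiableAt 𝓘(ℝ, E') 𝓘(ℝ, E) (extChartAt I x ∘ f ∘ (extChartAt J z).symm) u :=
  ((contMDiffAt_chart (hx (mem_image_of_mem f hu.2))).mdifferentiableAt (by simp)).comp u
    ((hd _ hu.2).comp u ((contMDiffAt_chart_symm hu.1).mdifferentiableAt (by simp)))

theorem ms_image_loc (hs : MeasurableSet s) (hd : ∀ w ∈ s, MDifferentiableAt J I f w)
    (hi : InjOn f s) (hz : s ⊆ (extChartAt J z).source) (hx : f '' s ⊆ (extChartAt I x).source) :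
    MeasurableSet (f '' s) := by
  have h1 : MeasurableSet ((extChartAt I x ∘ f ∘ (extChartAt J z).symm) ''
      ((extChartAt J z).target ∩ (extChartAt J z).symm ⁻¹' s)) :=
    (ms_cimg z hs).image_of_continuousOn_injOn
      (fun u hu => (written_mdiff hd hx hu).continuousAt.continuousWithinAt) (written_injOn hi hx)
  rw [written_image hz hx] at h1
  have h2 := ms_inter (continuousOn_extChartAt (I := I) x) (ms_source x) h1
  convert h2 using 1
  ext w
  constructor
  · intro hw
    refine ⟨hx hw, (extChartAt I x).map_source (hx hw), ?_⟩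
    rw [mem_preimage, (extChartAt I x).left_inv (hx hw)]; exact hw
  · rintro ⟨h3, -, h4⟩
    rwa [mem_preimage, (extChartAt I x).left_inv h3] at h4

theorem cm_image_loc (h : finrank ℝ E = finrank ℝ E') (a : M → Ext E) (hs : MeasurableSet s)
    (hd : ∀ w ∈ s, MDifferentiableAt J I f w)
    (hi : InjOn f s) (hz : s ⊆ (extChartAt J z).source) (hx : f '' s ⊆ (extChartAt I x).source) :
    cm I x a (f '' s) = cm J z (pm J I f a) s := by
  rw [cm_apply x a (ms_image_loc hs hd hi hz hx), cm_apply z _ hs, ← written_image hz hx,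
    lintegral_image h (ms_cimg z hs)
      (f' := fun u => fderiv ℝ (extChartAt I x ∘ f ∘ (extChartAt J z).symm) u)
      (fun u hu => (written_mdiff hd hx hu).differentiableAt.hasFDerivAt.hasFDerivWithinAt)
      (written_injOn hi hx)]
  refine setLIntegral_congr_fun (ms_cimg z hs) fun u hu => ?_
  have h1 := hx (mem_image_of_mem f hu.2)
  have c1 := (contMDiffAt_chart_symm hu.1).mdifferentiableAt (by simp)
  have c2 := hd _ hu.2
  have c3 := (contMDiffAt_chart h1).mdifferentiableAt (by simp)
  have e : rp J z (pm J I f a) u =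
      pm 𝓘(ℝ, E') 𝓘(ℝ, E) (extChartAt I x ∘ f ∘ (extChartAt J z).symm) (rp I x a) u := by
    rw [← pm_comp (f := f ∘ (extChartAt J z).symm) c3 (c2.comp u c1), rp, pm_comp c2 c1]
    exact pm_congr_right (pm_chart_rp h1 a).symm
  simp only [cd]
  rw [e, tp_pm h, mf_eq_fderiv, abs_mul, ENNReal.ofReal_mul (abs_nonneg _)]

end loc

theorem cm_agree (a : M → Ext E) {x z : M} {s : Set M} (hs : MeasurableSet s)
    (hz : s ⊆ (extChartAt I z).source) (hx : s ⊆ (extChartAt I x).source) :
    cm I x a s = cm I z a s := by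
  have h := cm_image_loc (J := I) (f := id) (x := x) (z := z) rfl a hs
    (fun _ _ => mdifferentiableAt_id) (injOn_id s) hz (by simpa using hx)
  rwa [image_id, pm_id] at h

variable (I) in
/-- `μ` is the measure of the form `a` -/
def IsDens (a : M → Ext E) (μ : Measure M) : Prop :=
  ∀ x, μ.restrict (extChartAt I x).source = cm I x a

variable (I) in
open Classical in
/-- the measure `|top part of a|` -/
def dens (a : M → Ext E) : Measure M := if h : ∃ μ, IsDens I a μ then h.choose else 0

variable [SecondCountableTopology M] [SecondCountableTopology N]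

variable (I M) in
/-- a countable measurable partition subordinate to the charts -/
theorem exists_part : ∃ D : ℕ → Set M, (∀ n, MeasurableSet (D n)) ∧ Pairwise (Disjoint on D) ∧
    ⋃ n, D n = univ ∧ ∀ n, D n = ∅ ∨ ∃ x, D n ⊆ (extChartAt I x).source := by
  rcases isEmpty_or_nonempty M with hM | hM
  · exact ⟨fun _ => ∅, fun _ => MeasurableSet.empty, fun _ _ _ => disjoint_empty _,
      Subsingleton.elim _ _, fun _ => Or.inl rfl⟩
  obtain ⟨c, hc⟩ := TopologicalSpace.countable_cover_nhds
    (fun x : M => extChartAt_source_mem_nhds (I := I) x)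
  obtain ⟨u, hu⟩ := (hc.1.insert hM.some).exists_eq_range (insert_nonempty _ _)
  refine ⟨disjointed fun n => (extChartAt I (u n)).source,
    MeasurableSet.disjointed fun n => ms_source _, disjoint_disjointed _, ?_,
    fun n => Or.inr ⟨u n, disjointed_subset _ n⟩⟩
  rw [iUnion_disjointed, eq_univ_iff_forall]
  intro x
  have hx : x ∈ ⋃ y ∈ c, (extChartAt I y).source := by rw [hc.2]; trivial
  obtain ⟨y, hy, hxy⟩ := mem_iUnion₂.1 hx
  obtain ⟨n, rfl⟩ : y ∈ range u := hu ▸ mem_insert_of_mem _ hy
  exact mem_iUnion.2 ⟨n, hxy⟩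

theorem measure_part {α : Type*} [MeasurableSpace α] {D : ℕ → Set α}
    (h1 : ∀ n, MeasurableSet (D n)) (h2 : Pairwise (Disjoint on D)) (h3 : ⋃ n, D n = univ)
    (μ : Measure α) {t : Set α} (ht : MeasurableSet t) : μ t = ∑' n, μ (t ∩ D n) := by
  rw [← measure_iUnion (fun i j hij => (h2 hij).mono inter_subset_right inter_subset_right)
    fun n => ht.inter (h1 n), ← inter_iUnion, h3, inter_univ]

theorem exists_isDens (a : M → Ext E) : ∃ μ, IsDens I a μ := by
  classical
  obtain ⟨D, h1, h2, h3, h4⟩ := exists_part I M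
  let ν : ℕ → Measure M := fun n =>
    if h : ∃ x, D n ⊆ (extChartAt I x).source then (cm I h.choose a).restrict (D n) else 0
  refine ⟨Measure.sum ν, fun x => Measure.ext fun t ht => ?_⟩
  have ht' := ht.inter (ms_source (I := I) x)
  rw [Measure.restrict_apply ht, Measure.sum_apply _ ht', ← cm_inter x a ht,
    measure_part h1 h2 h3 _ ht']
  refine tsum_congr fun n => ?_
  by_cases h : ∃ x, D n ⊆ (extChartAt I x).source
  · simp only [ν, dif_pos h]
    rw [Measure.restrict_apply ht']
    exact cm_agree a (ht'.inter (h1 n)) (fun y hy => hy.1.2) fun y hy => h.choose_spec hy.2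
  · simp only [ν, dif_neg h]
    rw [(h4 n).resolve_right h]
    simp

theorem isDens_dens (a : M → Ext E) : IsDens I a (dens I a) := by
  rw [dens, dif_pos (exists_isDens a)]
  exact (exists_isDens a).choose_spec

/-- **chart formula** -/
theorem dens_restrict (a : M → Ext E) (x : M) :
    (dens I a).restrict (extChartAt I x).source = cm I x a := isDens_dens a x

theorem IsDens.apply {a : M → Ext E} {μ : Measure M} (h : IsDens I a μ) {x : M} {s : Set M}
    (hs : MeasurableSet s) (hx : s ⊆ (extChartAt I x).source) : μ s = cm I x a s := by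
  rw [← h x, Measure.restrict_apply hs, inter_eq_left.2 hx]

theorem dens_apply (a : M → Ext E) {x : M} {s : Set M} (hs : MeasurableSet s)
    (hx : s ⊆ (extChartAt I x).source) : dens I a s = cm I x a s := (isDens_dens a).apply hs hx

variable (I) in
/-- two measures that agree on the measurable subsets of chart domains are equal -/
theorem ext_chart {μ ν : Measure M}
    (h : ∀ x s, MeasurableSet s → s ⊆ (extChartAt I x).source → μ s = ν s) : μ = ν := by
  obtain ⟨D, h1, h2, h3, h4⟩ := exists_part I M
  refine Measure.ext fun t ht => ?_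
  rw [measure_part h1 h2 h3 _ ht, measure_part h1 h2 h3 ν ht]
  refine tsum_congr fun n => ?_
  rcases h4 n with h0 | ⟨x, hx⟩
  · simp [h0]
  · exact h x _ (ht.inter (h1 n)) fun y hy => hx hy.2

theorem IsDens.eq_dens {a : M → Ext E} {μ : Measure M} (h : IsDens I a μ) : μ = dens I a :=
  ext_chart I fun _ _ hs hx => (h.apply hs hx).trans (dens_apply a hs hx).symm

/-- the pieces used to localise a map -/
theorem exists_part₂ {f : N → M} {s : Set N} (hs : MeasurableSet s) (hc : ContinuousOn f s) :
    ∃ D : ℕ × ℕ → Set N, (∀ n, MeasurableSet (D n)) ∧ Pairwise (Disjoint on D) ∧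
      ⋃ n, D n = s ∧ ∀ n, D n = ∅ ∨ ∃ z x, D n ⊆ (extChartAt J z).source ∧
        f '' D n ⊆ (extChartAt I x).source := by
  obtain ⟨D, h1, h2, h3, h4⟩ := exists_part I M
  obtain ⟨D', h1', h2', h3', h4'⟩ := exists_part J N
  refine ⟨fun n => D' n.1 ∩ (s ∩ f ⁻¹' D n.2), fun n => (h1' _).inter (ms_inter hc hs (h1 _)),
    fun n m hnm => ?_, ?_, fun n => ?_⟩
  · by_cases h : n.1 = m.1
    · have h' : n.2 ≠ m.2 := fun h' => hnm (Prod.ext h h')
      exact ((h2 h').preimage f).mono (fun y hy => hy.2.2) fun y hy => hy.2.2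
    · exact (h2' h).mono inter_subset_left inter_subset_left
  · refine subset_antisymm (iUnion_subset fun n y hy => hy.2.1) fun y hy => ?_
    obtain ⟨i, hi⟩ := mem_iUnion.1 (h3' ▸ mem_univ y : y ∈ ⋃ n, D' n)
    obtain ⟨j, hj⟩ := mem_iUnion.1 (h3 ▸ mem_univ (f y) : f y ∈ ⋃ n, D n)
    exact mem_iUnion.2 ⟨(i, j), hi, hy, hj⟩
  · rcases h4' n.1 with h0 | ⟨z, hz⟩
    · left; simp [h0]
    rcases h4 n.2 with h0 | ⟨x, hx⟩
    · left; simp [h0]
    exact Or.inr ⟨z, x, fun y hy => hz hy.1, by rintro _ ⟨y, hy, rfl⟩; exact hx hy.2.2⟩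

variable {f : N → M} {s : Set N}

theorem ms_image (hs : MeasurableSet s) (hd : ∀ w ∈ s, MDifferentiableAt J I f w)
    (hi : InjOn f s) : MeasurableSet (f '' s) := by
  obtain ⟨D, h1, -, h3, h4⟩ := exists_part₂ (I := I) (J := J) hs
    fun w hw => (hd w hw).continuousAt.continuousWithinAt
  have hD : ∀ n, D n ⊆ s := fun n => h3 ▸ subset_iUnion D n
  rw [← h3, image_iUnion]
  refine MeasurableSet.iUnion fun n => ?_
  rcases h4 n with h0 | ⟨z, x, hz, hx⟩
  · simp [h0]
  · exact ms_image_loc (h1 n) (fun w hw => hd w (hD n hw)) (hi.mono (hD n)) hz hx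

/-- **change of variables**, for sets -/
theorem dens_image (h : finrank ℝ E = finrank ℝ E') (a : M → Ext E) (hs : MeasurableSet s)
    (hd : ∀ w ∈ s, MDifferentiableAt J I f w) (hi : InjOn f s) :
    dens I a (f '' s) = dens J (pm J I f a) s := by
  obtain ⟨D, h1, h2, h3, h4⟩ := exists_part₂ (I := I) (J := J) hs
    fun w hw => (hd w hw).continuousAt.continuousWithinAt
  have hD : ∀ n, D n ⊆ s := fun n => h3 ▸ subset_iUnion D n
  have h5 : ∀ n, MeasurableSet (f '' D n) := fun n =>
    ms_image (h1 n) (fun w hw => hd w (hD n hw)) (hi.mono (hD n))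
  have h6 : Pairwise (Disjoint on fun n => f '' D n) := fun n m hnm =>
    (h2 hnm).image hi (hD n) (hD m)
  conv_lhs => rw [← h3, image_iUnion, measure_iUnion h6 h5]
  conv_rhs => rw [← h3, measure_iUnion h2 h1]
  refine tsum_congr fun n => ?_
  rcases h4 n with h0 | ⟨z, x, hz, hx⟩
  · simp [h0]
  · rw [dens_apply a (h5 n) hx, dens_apply _ (h1 n) hz]
    exact cm_image_loc h a (h1 n) (fun w hw => hd w (hD n hw)) (hi.mono (hD n)) hz hx

theorem measurableEmbedding_restrict (hs : MeasurableSet s)
    (hd : ∀ w ∈ s, MDifferentiableAt J I f w) (hi : InjOn f s) :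
    MeasurableEmbedding (s.domRestrict f) := by
  refine ⟨hi.injective, (ContinuousOn.domRestrict
    fun w hw => (hd w hw).continuousAt.continuousWithinAt).measurable, fun t ht => ?_⟩
  have h1 : s.domRestrict f '' t = f '' (Subtype.val '' t) := by rw [image_image]; rfl
  have h2 : (Subtype.val '' t : Set N) ⊆ s := Subtype.coe_image_subset s t
  rw [h1]
  exact ms_image (hs.subtype_image ht) (fun w hw => hd w (h2 hw)) (hi.mono h2)

/-- **change of variables**, for measures -/
theorem map_dens (h : finrank ℝ E = finrank ℝ E') (a : M → Ext E) (hs : MeasurableSet s)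
    (hd : ∀ w ∈ s, MDifferentiableAt J I f w) (hi : InjOn f s) :
    ((dens J (pm J I f a)).restrict s).map f = (dens I a).restrict (f '' s) := by
  have hc : ContinuousOn f s := fun w hw => (hd w hw).continuousAt.continuousWithinAt
  refine Measure.ext fun t ht => ?_
  rw [Measure.map_apply_of_aemeasurable (hc.aemeasurable hs) ht, Measure.restrict_apply' hs,
    Measure.restrict_apply ht, inter_comm, ← dens_image h a (ms_inter hc hs ht)
      (fun w hw => hd w hw.1) (hi.mono inter_subset_left), image_inter_preimage, inter_comm]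

theorem map_restrict_dens (h : finrank ℝ E = finrank ℝ E') (a : M → Ext E) (hs : MeasurableSet s)
    (hd : ∀ w ∈ s, MDifferentiableAt J I f w) (hi : InjOn f s) :
    ((dens J (pm J I f a)).comap (Subtype.val : s → N)).map (s.domRestrict f) =
      (dens I a).restrict (f '' s) := by
  have hc : ContinuousOn f s := fun w hw => (hd w hw).continuousAt.continuousWithinAt
  rw [← map_dens h a hs hd hi, ← map_comap_subtype_coe hs, AEMeasurable.map_map_of_aemeasurable]
  · rfl
  · rw [map_comap_subtype_coe hs]; exact hc.aemeasurable hs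
  · exact measurable_subtype_coe.aemeasurable

/-- **change of variables**, for integrals; no measurability of `g` is needed -/
theorem setIntegral_image {V : Type*} [NormedAddCommGroup V] [NormedSpace ℝ V]
    (h : finrank ℝ E = finrank ℝ E') (a : M → Ext E) (hs : MeasurableSet s)
    (hd : ∀ w ∈ s, MDifferentiableAt J I f w) (hi : InjOn f s) (g : M → V) :
    ∫ x in f '' s, g x ∂(dens I a) = ∫ y in s, g (f y) ∂(dens J (pm J I f a)) := by
  rw [← map_restrict_dens h a hs hd hi, (measurableEmbedding_restrict hs hd hi).integral_map,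
    ← integral_subtype_comap hs]
  rfl

theorem setLIntegral_image (h : finrank ℝ E = finrank ℝ E') (a : M → Ext E) (hs : MeasurableSet s)
    (hd : ∀ w ∈ s, MDifferentiableAt J I f w) (hi : InjOn f s) (g : M → ℝ≥0∞) :
    ∫⁻ x in f '' s, g x ∂(dens I a) = ∫⁻ y in s, g (f y) ∂(dens J (pm J I f a)) := by
  rw [← map_restrict_dens h a hs hd hi, (measurableEmbedding_restrict hs hd hi).lintegral_map,
    ← lintegral_subtype_comap hs]
  rfl

theorem integrableOn_image {V : Type*} [NormedAddCommGroup V]
    (h : finrank ℝ E = finrank ℝ E') (a : M → Ext E) (hs : MeasurableSet s)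
    (hd : ∀ w ∈ s, MDifferentiableAt J I f w) (hi : InjOn f s) (g : M → V) :
    IntegrableOn g (f '' s) (dens I a) ↔ IntegrableOn (g ∘ f) s (dens J (pm J I f a)) := by
  rw [IntegrableOn, ← map_restrict_dens h a hs hd hi,
    (measurableEmbedding_restrict hs hd hi).integrable_map_iff, integrableOn_iff_comap_subtypeVal hs]
  rfl

/-- the measure only depends on the absolute value of the top coefficient -/
theorem dens_congr_on {a b : M → Ext E} {t : Set M} (ht : MeasurableSet t)
    (h : ∀ x ∈ t, |tp E (a x)| = |tp E (b x)|) : (dens I a).restrict t = (dens I b).restrict t := by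
  refine ext_chart I fun x u hu hx => ?_
  have h1 : u ∩ t ⊆ (extChartAt I x).source := fun y hy => hx hy.1
  rw [Measure.restrict_apply hu, Measure.restrict_apply hu, dens_apply a (hu.inter ht) h1,
    dens_apply b (hu.inter ht) h1, cm_apply _ _ (hu.inter ht), cm_apply _ _ (hu.inter ht)]
  refine setLIntegral_congr_fun (ms_cimg x (hu.inter ht)) fun y hy => ?_
  simp only [cd, rp]
  rw [tp_pm rfl, tp_pm rfl, abs_mul, abs_mul, h _ hy.2.2]

theorem dens_congr {a b : M → Ext E} (h : ∀ x, |tp E (a x)| = |tp E (b x)|) :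
    dens I a = dens I b := by
  have := dens_congr_on (I := I) MeasurableSet.univ fun x _ => h x
  rwa [Measure.restrict_univ, Measure.restrict_univ] at this

/-- on a normed space -/
theorem dens_model (a : E → Ext E) :
    dens 𝓘(ℝ, E) a = (hm E).withDensity fun y => ENNReal.ofReal |tp E (a y)| := by
  have h := dens_restrict (I := 𝓘(ℝ, E)) a 0
  rw [cm, cn] at h
  simp only [cd, rp_model, extChartAt_model_space_eq_id, PartialEquiv.refl_source,
    PartialEquiv.refl_target, Measure.restrict_univ, PartialEquiv.refl_symm,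
    PartialEquiv.refl_coe, Measure.map_id] at h
  exact h

end Crest.Agent.X212.Int54
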