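import Crest.Agent.X212.Int54.Stokes
import Crest.Agent.X212.Met55.Lin

/-!
# X212/Int54/Fram (helper54): forms and spanning frames; unit volume forms
-/

set_option autoImplicit false
set_option linter.unusedSectionVars false

open Set Filter Topology Function Module MeasureTheory Matrix
open scoped ContDiff ENNReal Manifold Nat
open Crest.Agent.R208 Crest.Agent.R208.F Crest.Agent.X212.Dr59 Crest.Agent.X212.Met55

noncomputable section

namespace Crest.Agent.X212.Int54

theorem cauchy_binet {n ι : Type*} [Fintype n] [DecidableEq n] [Fintype ι]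
    (A : Matrix n ι ℝ) (B : Matrix ι n ℝ) :
    ∑ p : n → ι, (A.submatrix id p).det * (B.submatrix p id).det =
      (Fintype.card n)! * (A * B).det := by
  classical
  have h1 : (A * B).det = ∑ p : n → ι, (A.submatrix id p).det * ∏ i, B (p i) i := by
    simp only [det_apply', mul_apply, Finset.prod_univ_sum, Finset.mul_sum,
      Fintype.piFinset_univ, Finset.sum_mul]
    rw [Finset.sum_comm]
    refine Finset.sum_congr rfl fun p _ => Finset.sum_congr rfl fun σ _ => ?_
    rw [Finset.prod_mul_distrib, mul_assoc]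
    rfl
  have h2 : ∀ τ : Equiv.Perm n, ∑ p : n → ι, (A.submatrix id p).det *
      ((Equiv.Perm.sign τ : ℝ) * ∏ i, B (p (τ i)) i) = (A * B).det := fun τ => by
    rw [h1]
    refine Fintype.sum_equiv (Equiv.arrowCongr τ.symm (Equiv.refl ι)) _ _ fun p => ?_
    have : A.submatrix id (Equiv.arrowCongr τ.symm (Equiv.refl ι) p) =
        (A.submatrix id p).submatrix id τ := rfl
    rw [this, det_permute']
    simp only [Equiv.arrowCongr_apply, Equiv.symm_symm, Equiv.coe_refl, Function.comp_apply, id]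
    ring
  have h3 : ∀ p : n → ι, (B.submatrix p id).det =
      ∑ τ : Equiv.Perm n, (Equiv.Perm.sign τ : ℝ) * ∏ i, B (p (τ i)) i := fun p => by
    rw [det_apply']; rfl
  simp only [h3, Finset.mul_sum]
  rw [Finset.sum_comm, Finset.sum_congr rfl fun τ _ => h2 τ, Finset.sum_const, Finset.card_univ,
    Fintype.card_perm, nsmul_eq_mul]

variable {E : Type*} [NormedAddCommGroup E] [NormedSpace ℝ E] [FiniteDimensional ℝ E]
  {E' : Type*} [NormedAddCommGroup E'] [NormedSpace ℝ E'] [FiniteDimensional ℝ E']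
  {ι κ : Type*} [Fintype ι] [Fintype κ]

section pt
variable {v : ι → E} {c c' : Ext E}

theorem evA_fm (v : ι → E) (c : Ext E) (Φ : Fin (finrank ℝ E) → ι) :
    evA E (finrank ℝ E) c (fun i => v (Φ i)) =
      ((fm (finBasis ℝ E) v).submatrix id Φ).det * tp E c := by
  rw [evA_top, Basis.det_apply]; rfl

/-- the inner product of two top forms in a frame -/
theorem sum_evA {n : ℕ} (h : finrank ℝ E = n) (v : ι → E) (c c' : Ext E) :
    ∑ Φ : Fin n → ι, evA E n c (fun i => v (Φ i)) * evA E n c' (fun i => v (Φ i)) =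
      n ! * ((gm (finBasis ℝ E) v).det * (tp E c * tp E c')) := by
  subst h
  have h1 := cauchy_binet (fm (finBasis ℝ E) v) (fm (finBasis ℝ E) v)ᵀ
  rw [Fintype.card_fin] at h1
  rw [← mul_assoc, gm, ← h1, Finset.sum_mul]
  refine Finset.sum_congr rfl fun Φ _ => ?_
  rw [evA_fm, evA_fm, ← det_transpose ((fm (finBasis ℝ E) v)ᵀ.submatrix Φ id)]
  simp only [transpose_submatrix, transpose_transpose]
  ring

/-- the top part of `c` has length one for the metric of the frame `v` -/
def IsU (v : ι → E) (c : Ext E) : Prop := (gm (finBasis ℝ E) v).det * tp E c ^ 2 = 1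

theorem IsU.ne (h : IsU v c) : tp E c ≠ 0 := fun h0 => by simp [IsU, h0] at h

theorem IsU.sp (h : IsU v c) : Sp v :=
  sp_of_unit (b := finBasis ℝ E) (left_ne_zero_of_mul_eq_one h).isUnit

theorem rjb_sq (h : Sp v) : (gm (finBasis ℝ E) v).det * rjb (finBasis ℝ E) v ^ 2 = 1 := by
  rw [rjb, inv_pow, Real.sq_sqrt h.det_pos.le, mul_inv_cancel₀ h.det_pos.ne']

theorem IsU.abs (h : IsU v c) : |tp E c| = rjb (finBasis ℝ E) v := by
  have h1 := rjb_sq h.sp
  have h2 := mul_left_cancel₀ h.sp.det_pos.ne' (h1.trans (Eq.symm h))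
  rw [← sq_eq_sq₀ (abs_nonneg _) h.sp.rjb_pos.le, sq_abs, h2]

theorem isU_of_abs (hs : Sp v) (h : |tp E c| = rjb (finBasis ℝ E) v) : IsU v c := by
  rw [IsU, ← sq_abs, h, rjb_sq hs]

theorem isU_iff_sum {n : ℕ} (h : finrank ℝ E = n) :
    IsU v c ↔ ∑ Φ : Fin n → ι, evA E n c (fun i => v (Φ i)) ^ 2 = n ! := by
  simp only [sq]
  rw [sum_evA h, IsU, sq]
  have : (n ! : ℝ) ≠ 0 := by exact_mod_cast n.factorial_ne_zero
  exact ⟨fun h => by rw [h, mul_one], fun h => mul_left_cancel₀ this (h.trans (mul_one _).symm)⟩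

theorem IsU.co {w : κ → E} (h : IsU v c) (hc : Co v w) : IsU w c := by
  rw [IsU, ← hc.gm_eq]; exact h

theorem isU_pb (h : finrank ℝ E = finrank ℝ E') (A : E' →L[ℝ] E) (w : κ → E') :
    IsU w (pb (A : E' →ₗ[ℝ] E) c) ↔ IsU (fun a => A (w a)) c := by
  rw [isU_iff_sum h.symm, isU_iff_sum rfl]
  simp only [evA_pb]
  rfl

/-- pull-back by a map matching the cometrics -/
theorem IsU.pb (hu : IsU v c) (h : finrank ℝ E = finrank ℝ E') {A : E' →L[ℝ] E} {w : κ → E'}
    (hc : Co (fun a => A (w a)) v) : IsU w (pb (A : E' →ₗ[ℝ] E) c) :=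
  (isU_pb h A w).2 (hu.co hc.symm)

theorem IsU.abs_eq (h : IsU v c) (h' : IsU v c') : |tp E c| = |tp E c'| := h.abs.trans h'.abs.symm

theorem IsU.tp_eq (h : IsU v c) (h' : IsU v c') (hp : 0 < tp E c * tp E c') :
    tp E c = tp E c' := by
  rcases abs_eq_abs.1 (h.abs_eq h') with e | e
  · exact e
  · rw [e] at hp; nlinarith [sq_nonneg (tp E c')]

theorem evA_congr_tp {n : ℕ} (h : finrank ℝ E = n) (e : tp E c = tp E c') (w : Fin n → E) :
    evA E n c w = evA E n c' w := by
  subst h; rw [evA_top, evA_top, e]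

/-- the quotient by a unit form is the contraction of the components -/
theorem IsU.div_eq {n : ℕ} (hu : IsU v c) (h : finrank ℝ E = n) (a : Ext E) :
    tp E a / tp E c = (n ! : ℝ)⁻¹ *
      ∑ Φ : Fin n → ι, evA E n c (fun i => v (Φ i)) * evA E n a (fun i => v (Φ i)) := by
  have h0 : (n ! : ℝ) ≠ 0 := by exact_mod_cast n.factorial_ne_zero
  rw [sum_evA h, inv_mul_cancel_left₀ h0, div_eq_iff hu.ne]
  have : _ = (1 : ℝ) := hu
  linear_combination (-tp E a) * this

/-- every top form is a multiple of a unit form -/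
theorem evA_eq_div {n : ℕ} (h : finrank ℝ E = n) (hc : tp E c ≠ 0) (a : Ext E) (w : Fin n → E) :
    evA E n a w = tp E a / tp E c * evA E n c w := by
  subst h; rw [evA_top, evA_top]; field_simp

/-- product of two components of a unit form -/
theorem IsU.mul_eq {n : ℕ} (hu : IsU v c) (h : finrank ℝ E = n) {P : Matrix ι ι ℝ} (hP : IsP v P)
    (Φ Ψ : Fin n → ι) : evA E n c (fun i => v (Φ i)) * evA E n c (fun i => v (Ψ i)) =
      (P.submatrix Φ Ψ).det := by
  subst h
  have h1 : P.submatrix Φ Ψ = ((fm (finBasis ℝ E) v).submatrix id Φ)ᵀ * (gm (finBasis ℝ E) v)⁻¹ *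
      (fm (finBasis ℝ E) v).submatrix id Ψ := by
    rw [hP.eq_prj hu.sp (finBasis ℝ E), prj, ri]
    ext i j
    simp only [submatrix_apply, mul_apply, transpose_apply, id]
  rw [h1, det_mul, det_mul, det_transpose, det_nonsing_inv, Ring.inverse_eq_inv', evA_fm, evA_fm]
  have h2 := hu.sp.det_pos (b := finBasis ℝ E)
  have : _ = (1 : ℝ) := hu
  field_simp
  linear_combination (((fm (finBasis ℝ E) v).submatrix id Φ).det *
    ((fm (finBasis ℝ E) v).submatrix id Ψ).det) * this

theorem evA_mix (n : ℕ) (c : Ext E) (v : ι → E) (U : Fin n → ι → ℝ) :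
    evA E n c (fun i => ∑ a, U i a • v a) =
      ∑ Φ : Fin n → ι, (∏ i, U i (Φ i)) * evA E n c fun i => v (Φ i) := by
  have := (evA E n c).toMultilinearMap.map_sum fun i a => U i a • v a
  refine this.trans (Finset.sum_congr rfl fun Φ _ => ?_)
  exact (evA E n c).toMultilinearMap.map_smul_univ _ _

theorem sum_fun4 (f : (Fin 4 → ι) → ℝ) :
    ∑ Φ, f Φ = ∑ a, ∑ b, ∑ c, ∑ d, f ![a, b, c, d] := by
  have h : ∀ (n : ℕ) (f : (Fin (n + 1) → ι) → ℝ), ∑ Φ, f Φ = ∑ a, ∑ Φ, f (vecCons a Φ) :=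
    fun n f => by
      rw [← (Fin.consEquiv fun _ => ι).sum_comp, Fintype.sum_prod_type]; rfl
  simp only [h, Fintype.sum_unique]
  rfl

theorem sp_of_span (h : Submodule.span ℝ (range v) = ⊤) : Sp v := fun w => by
  obtain ⟨c, hc⟩ := (Submodule.mem_span_range_iff_exists_fun ℝ).1
    (h ▸ Submodule.mem_top : w ∈ Submodule.span ℝ (range v))
  exact ⟨c, hc.symm⟩

end pt

variable [MeasurableSpace E] [BorelSpace E] [MeasurableSpace E'] [BorelSpace E']
  {H : Type*} [TopologicalSpace H] {I : ModelWithCorners ℝ E H} [I.Boundaryless]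
  {M : Type*} [TopologicalSpace M] [ChartedSpace H M] [IsManifold I ∞ M]
  [MeasurableSpace M] [BorelSpace M] [SecondCountableTopology M]
  {H' : Type*} [TopologicalSpace H'] {J : ModelWithCorners ℝ E' H'} [J.Boundaryless]
  {N : Type*} [TopologicalSpace N] [ChartedSpace H' N] [IsManifold J ∞ N]
  [MeasurableSpace N] [BorelSpace N] [SecondCountableTopology N]

/-- the values of a frame at a point -/
def fv (e : ι → (x : M) → TangentSpace I x) (x : M) (a : ι) : E := e a x

/-- components of a form in a frame -/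
def cf (e : ι → (x : M) → TangentSpace I x) (n : ℕ) (a : M → Ext E) (Φ : Fin n → ι) (x : M) : ℝ :=
  evA E n (a x) fun i => fv e x (Φ i)

/-- `v` is a unit top form for the frame `e` (no regularity, no orientation) -/
def UnitV (e : ι → (x : M) → TangentSpace I x) (v : M → Ext E) : Prop := ∀ x, IsU (fv e x) (v x)

/-- the Riemannian density as a form; it is only used through `dens` -/
def rf (e : ι → (x : M) → TangentSpace I x) (x : M) : Ext E :=
  rjb (finBasis ℝ E) (fv e x) • vol0 E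

/-- the factor that normalises an orientation form -/
def nf (o : M → Ext E) (e : ι → (x : M) → TangentSpace I x) (x : M) : ℝ :=
  rjb (finBasis ℝ E) (fv e x) / |tp E (o x)|

/-- the volume form of the frame `e` with the orientation `o` -/
def volF (o : M → Ext E) (e : ι → (x : M) → TangentSpace I x) : M → Ext E := nf o e • o

variable {e : ι → (x : M) → TangentSpace I x} {o v a : M → Ext E} {x : M}

theorem isU_rf (h : Sp (fv e x)) : IsU (fv e x) (rf e x) := isU_of_abs h (by
  rw [rf, map_smul, tp_vol0, smul_eq_mul, mul_one, abs_of_pos h.rjb_pos])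

theorem unitV_rf (h : ∀ x, Sp (fv e x)) : UnitV e (rf e) := fun x => isU_rf (h x)

theorem nf_pos (h : Sp (fv e x)) (ho : tp E (o x) ≠ 0) : 0 < nf o e x :=
  div_pos h.rjb_pos (abs_pos.2 ho)

theorem isU_volF (h : Sp (fv e x)) (ho : tp E (o x) ≠ 0) : IsU (fv e x) (volF o e x) :=
  isU_of_abs h (by
    rw [volF, Pi.smul_apply', map_smul, smul_eq_mul, abs_mul, abs_of_pos (nf_pos h ho), nf,
      div_mul_cancel₀ _ (abs_pos.2 ho).ne'])

theorem Ori.unitV_volF (ho : Ori I o) (h : ∀ x, Sp (fv e x)) : UnitV e (volF o e) :=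
  fun x => isU_volF (h x) (ho.ne x)

theorem Ori.sameOn_volF (ho : Ori I o) (h : ∀ x, Sp (fv e x)) (s : Set M) :
    SameOn o (volF o e) s := sameOn_fsmul (fun x _ => ho.ne x) fun x _ => nf_pos (h x) (ho.ne x)

theorem unitV_of_sum {n : ℕ} (h : finrank ℝ E = n)
    (hs : ∀ x, ∑ Φ : Fin n → ι, cf e n v Φ x ^ 2 = n !) : UnitV e v :=
  fun x => (isU_iff_sum h).2 (hs x)

theorem UnitV.sum {n : ℕ} (hv : UnitV e v) (h : finrank ℝ E = n) (x : M) :
    ∑ Φ : Fin n → ι, cf e n v Φ x ^ 2 = n ! := (isU_iff_sum h).1 (hv x)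

theorem unitV_of_sum4 (h : finrank ℝ E = 4)
    (hs : ∀ x, ∑ a, ∑ b, ∑ c, ∑ d, cf e 4 v ![a, b, c, d] x ^ 2 = 24) : UnitV e v :=
  unitV_of_sum h fun x => by rw [sum_fun4, hs x]; norm_num [Nat.factorial]

theorem UnitV.sum4 (hv : UnitV e v) (h : finrank ℝ E = 4) (x : M) :
    ∑ a, ∑ b, ∑ c, ∑ d, cf e 4 v ![a, b, c, d] x ^ 2 = 24 := by
  have := hv.sum h x
  rw [sum_fun4] at this
  rw [this]; norm_num [Nat.factorial]

theorem UnitV.rat_eq {n : ℕ} (hv : UnitV e v) (h : finrank ℝ E = n) (a : M → Ext E) (x : M) :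
    rat v a x = (n ! : ℝ)⁻¹ * ∑ Φ : Fin n → ι, cf e n v Φ x * cf e n a Φ x := (hv x).div_eq h _

theorem UnitV.rat_eq4 (hv : UnitV e v) (h : finrank ℝ E = 4) (a : M → Ext E) (x : M) :
    rat v a x = (1 / 24 : ℝ) *
      ∑ i, ∑ j, ∑ k, ∑ l, cf e 4 v ![i, j, k, l] x * cf e 4 a ![i, j, k, l] x := by
  rw [hv.rat_eq h, sum_fun4]; norm_num [Nat.factorial]

theorem UnitV.cf_eq {n : ℕ} (hv : UnitV e v) (h : finrank ℝ E = n) (a : M → Ext E)
    (Φ : Fin n → ι) (x : M) : cf e n a Φ x = rat v a x * cf e n v Φ x := evA_eq_div h (hv x).ne _ _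

/-- values of a smooth form on smooth vector fields are smooth -/
theorem contMDiffAt_evA {k : WithTop ℕ∞} (hk : k ≤ (∞ : WithTop ℕ∞)) {n : ℕ}
    {X : Fin n → (x : M) → TangentSpace I x}
    (hX : ∀ i, ContMDiffAt I I.tangent ∞ (fun x => (⟨x, X i x⟩ : TangentBundle I M)) x)
    (ha : CAt I k a x) :
    ContMDiffAt I 𝓘(ℝ, ℝ) k (fun y => evA E n (a y) fun i => (show E from X i y)) x := by
  induction n generalizing a with
  | zero =>
    let L : Ext E →L[ℝ] ℝ := LinearMap.toContinuousLinearMap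
      { toFun := fun c => evA E 0 c Fin.elim0
        map_add' := fun a b => by simp
        map_smul' := fun r a => by simp }
    refine ((L.contDiff.contDiffAt.comp _ ha).contMDiffAt.comp x
      ((contMDiffAt_chart (mem_extChartAt_source x)).of_le hk)).congr_of_eventuallyEq ?_
    filter_upwards [extChartAt_source_mem_nhds (I := I) x] with y hy
    rw [← pm_chart_rp hy a, pm_apply, evA_pb]
    exact congrArg _ (Subsingleton.elim _ _)
  | succ n ih =>
    refine (ih (X := fun i => X i.succ) (fun i => hX _) (cAt_ic hk (hX 0) ha)).congr_of_eventuallyEq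
      (Eventually.of_forall fun y => ?_)
    refine Eq.trans ?_ (evA_ii n (a y) (show E from X 0 y) fun i => (show E from X i.succ y))
    exact congrArg _ (Fin.cons_self_tail _).symm

theorem contMDiffAt_cf {k : WithTop ℕ∞} (hk : k ≤ (∞ : WithTop ℕ∞)) {n : ℕ}
    (he : ∀ i, ContMDiffAt I I.tangent ∞ (fun x => (⟨x, e i x⟩ : TangentBundle I M)) x)
    (ha : CAt I k a x) (Φ : Fin n → ι) : ContMDiffAt I 𝓘(ℝ, ℝ) k (cf e n a Φ) x :=
  contMDiffAt_evA hk (X := fun i => e (Φ i)) (fun _ => he _) ha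

theorem nf_eq (x : M) : nf o e x = √((finrank ℝ E)! : ℝ) *
    (√(∑ Φ : Fin (finrank ℝ E) → ι, cf e _ o Φ x * cf e _ o Φ x))⁻¹ := by
  have h0 : (0 : ℝ) < (finrank ℝ E)! := by exact_mod_cast (finrank ℝ E).factorial_pos
  simp only [cf]
  rw [sum_evA rfl, Real.sqrt_mul h0.le, Real.sqrt_mul' _ (mul_self_nonneg _),
    Real.sqrt_mul_self_eq_abs, mul_inv, mul_inv_cancel_left₀ (Real.sqrt_pos.2 h0).ne', mul_inv,
    nf, rjb, div_eq_mul_inv]

theorem contMDiffAt_nf (h : Sp (fv e x)) (h0 : tp E (o x) ≠ 0)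
    (he : ∀ i, ContMDiffAt I I.tangent ∞ (fun x => (⟨x, e i x⟩ : TangentBundle I M)) x)
    (ho : SmAt I o x) : ContMDiffAt I 𝓘(ℝ, ℝ) ∞ (nf o e) x := by
  rw [funext (nf_eq (o := o) (e := e))]
  have h1 : 0 < ∑ Φ : Fin (finrank ℝ E) → ι, cf e _ o Φ x * cf e _ o Φ x := by
    simp only [cf]
    rw [sum_evA rfl]
    exact mul_pos (by exact_mod_cast (finrank ℝ E).factorial_pos)
      (mul_pos h.det_pos (mul_self_pos.2 h0))
  have h2 : ContMDiffAt I 𝓘(ℝ, ℝ) ∞
      (fun x => ∑ Φ : Fin (finrank ℝ E) → ι, cf e _ o Φ x * cf e _ o Φ x) x :=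
    contMDiffAt_finsetSum fun Φ _ =>
      (contMDiffAt_cf le_rfl he ho Φ).mul (contMDiffAt_cf le_rfl he ho Φ)
  have h3 : ContDiffAt ℝ ∞ (fun t : ℝ => √((finrank ℝ E)! : ℝ) * (√t)⁻¹)
      (∑ Φ : Fin (finrank ℝ E) → ι, cf e _ o Φ x * cf e _ o Φ x) :=
    contDiffAt_const.mul ((Real.contDiffAt_sqrt h1.ne').inv (Real.sqrt_pos.2 h1).ne')
  exact ContDiffAt.comp_contMDiffAt
    (f := fun x => ∑ Φ : Fin (finrank ℝ E) → ι, cf e _ o Φ x * cf e _ o Φ x) h3 h2

theorem Ori.volF (ho : Ori I o) (h : ∀ x, Sp (fv e x))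
    (he : ∀ i, ContMDiff I I.tangent ∞ fun x => (⟨x, e i x⟩ : TangentBundle I M)) :
    Ori I (volF o e) :=
  ho.fsmul (fun x => contMDiffAt_nf (h x) (ho.ne x) (fun i => he i x) (ho.sm x))
    fun x => (nf_pos (h x) (ho.ne x)).ne'

/-- the volume form only depends on the orientation and the cometric -/
theorem tp_pm_unit (h : finrank ℝ E = finrank ℝ E') {f : N → M} {y : N}
    {e' : κ → (y : N) → TangentSpace J y} {v' : N → Ext E'} (hv : IsU (fv e (f y)) (v (f y)))
    (hv' : IsU (fv e' y) (v' y)) (hc : Co (fun a => mf J I f y (fv e' y a)) (fv e (f y)))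
    (hp : 0 < tp E' (v' y) * tp E' (pm J I f v y)) : tp E' (pm J I f v y) = tp E' (v' y) :=
  (hv'.tp_eq (hv.pb h hc) hp).symm

theorem mf_symm_dv (X : (x : M) → TangentSpace I x) {u : E} (hu : u ∈ (extChartAt I x).target) :
    mf 𝓘(ℝ, E) I (extChartAt I x).symm u
      (Sob92.dv I X (extChartAt I x) ((extChartAt I x).symm u)) = X ((extChartAt I x).symm u) := by
  have h1 := (extChartAt I x).map_target hu
  have c1 := (contMDiffAt_chart_symm ((extChartAt I x).map_source h1)).mdifferentiableAt (by simp)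
  have c2 := (contMDiffAt_chart h1).mdifferentiableAt (by simp)
  have h2 : mf I I ((extChartAt I x).symm ∘ extChartAt I x) ((extChartAt I x).symm u) =
      ContinuousLinearMap.id ℝ E := by
    rw [← mf_id (I := I) ((extChartAt I x).symm u)]
    refine mf_congr ?_
    filter_upwards [(isOpen_extChartAt_source x).mem_nhds h1] with v hv
    exact (extChartAt I x).left_inv hv
  rw [mf_comp c1 c2, (extChartAt I x).right_inv hu] at h2
  exact DFunLike.congr_fun h2 _

/-- the density of a unit form in a chart -/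
theorem abs_cd_unit {u : E} (hu : u ∈ (extChartAt I x).target)
    (hv : IsU (fv e ((extChartAt I x).symm u)) (v ((extChartAt I x).symm u))) :
    |cd I x v u| = rjb (finBasis ℝ E)
      fun a => Sob92.dv I (e a) (extChartAt I x) ((extChartAt I x).symm u) := by
  refine IsU.abs ((isU_pb rfl _ _).2 ?_)
  simp only [mf_symm_dv _ hu]
  exact hv

end Crest.Agent.X212.Int54
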