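import Mathlib
import Crest.Agent.R208.F1c

/-!
# X212/Int54/Jac (helper54): top coefficient of a form, Jacobian between two model spaces,
change of variables between two finite-dimensional spaces of the same dimension.
-/

set_option autoImplicit false
set_option linter.unusedSectionVars false

open Set Filter Topology Function Module MeasureTheory
open scoped ContDiff ENNReal
open Crest.Agent.R208.F

noncomputable section

namespace Crest.Agent.X212.Int54

variable {E F G : Type*} [NormedAddCommGroup E] [NormedSpace ℝ E] [FiniteDimensional ℝ E]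
  [NormedAddCommGroup F] [NormedSpace ℝ F] [FiniteDimensional ℝ F]
  [NormedAddCommGroup G] [NormedSpace ℝ G] [FiniteDimensional ℝ G]

variable (E) in
/-- the coefficient of the top degree part of a form, in the basis `finBasis ℝ E` -/
def tp : Ext E →L[ℝ] ℝ :=
  LinearMap.toContinuousLinearMap
    { toFun := fun c => evA E (finrank ℝ E) c (finBasis ℝ E)
      map_add' := fun a b => by simp
      map_smul' := fun r a => by simp }

theorem tp_apply (c : Ext E) : tp E c = evA E (finrank ℝ E) c (finBasis ℝ E) := rfl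

theorem evA_cast {n m : ℕ} (h : n = m) (c : Ext E) (v : Fin n → E) :
    evA E m c (fun i => v (finCongr h.symm i)) = evA E n c v := by
  subst h; rfl

/-- the linear equivalence matching the chosen bases -/
def eqv (h : finrank ℝ F = finrank ℝ E) : F ≃L[ℝ] E :=
  ((finBasis ℝ F).equiv (finBasis ℝ E) (finCongr h)).toContinuousLinearEquiv

theorem eqv_basis (h : finrank ℝ F = finrank ℝ E) (i : Fin (finrank ℝ F)) :
    eqv h (finBasis ℝ F i) = finBasis ℝ E (finCongr h i) :=
  Basis.equiv_apply _ _ _ _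

/-- the Jacobian of a linear map between spaces of the same dimension, in the chosen bases -/
def jac (A : E →L[ℝ] F) : ℝ :=
  if h : finrank ℝ F = finrank ℝ E then ((eqv h : F →L[ℝ] E).comp A).det else 0

theorem jac_eq (h : finrank ℝ F = finrank ℝ E) (A : E →L[ℝ] F) :
    jac A = ((eqv h : F →L[ℝ] E).comp A).det := dif_pos h

theorem eqv_rfl : (eqv (rfl : finrank ℝ E = finrank ℝ E) : E →L[ℝ] E) = ContinuousLinearMap.id ℝ E := by
  apply ContinuousLinearMap.coe_injective
  refine (finBasis ℝ E).ext fun i => ?_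
  exact eqv_basis rfl i

theorem jac_self (A : E →L[ℝ] E) : jac A = A.det := by
  rw [jac_eq rfl, eqv_rfl, ContinuousLinearMap.id_comp]

theorem jac_id : jac (ContinuousLinearMap.id ℝ E) = 1 := by
  rw [jac_self]; exact LinearMap.det_id

/-- value of the top part on any family of vectors -/
theorem evA_top (c : Ext E) (v : Fin (finrank ℝ E) → E) :
    evA E (finrank ℝ E) c v = (finBasis ℝ E).det v * tp E c := by
  have e := AlternatingMap.eq_smul_basis_det (finBasis ℝ E) (evA E (finrank ℝ E) c)
  conv_lhs => rw [e]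
  rw [AlternatingMap.smul_apply, smul_eq_mul, mul_comm, tp_apply]

theorem tp_pb_self (A : E →L[ℝ] E) (c : Ext E) :
    tp E (pb (A : E →ₗ[ℝ] E) c) = A.det * tp E c := by
  rw [tp_apply, evA_pb, evA_top]
  congr 1
  have h1 := (finBasis ℝ E).det_comp (A : E →ₗ[ℝ] E) (finBasis ℝ E)
  rw [(finBasis ℝ E).det_self, mul_one] at h1
  exact h1

theorem tp_pb_eqv (h : finrank ℝ F = finrank ℝ E) (c : Ext E) :
    tp F (pb ((eqv h : F →L[ℝ] E) : F →ₗ[ℝ] E) c) = tp E c := by
  rw [tp_apply, evA_pb, tp_apply, ← evA_cast h.symm c (finBasis ℝ E)]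
  congr 1
  funext i
  exact eqv_basis h i

/-- the top coefficient of a pull-back -/
theorem tp_pb (h : finrank ℝ F = finrank ℝ E) (A : E →L[ℝ] F) (c : Ext F) :
    tp E (pb (A : E →ₗ[ℝ] F) c) = jac A * tp F c := by
  set L := eqv h
  have h1 : c = pb ((L : F →L[ℝ] E) : F →ₗ[ℝ] E) (pb ((L.symm : E →L[ℝ] F) : E →ₗ[ℝ] F) c) := by
    rw [pb_comp]
    have : ((L.symm : E →L[ℝ] F) : E →ₗ[ℝ] F) ∘ₗ ((L : F →L[ℝ] E) : F →ₗ[ℝ] E) = LinearMap.id := by
      ext v; simp
    rw [this, pb_id]
  rw [jac_eq h]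
  conv_lhs => rw [h1, pb_comp]
  conv_rhs => rw [h1, tp_pb_eqv h]
  exact tp_pb_self ((L : F →L[ℝ] E).comp A) _

variable (E) in
/-- the top form of the chosen basis -/
def vol0 : Ext E := ExteriorAlgebra.ιMulti ℝ (finrank ℝ E) fun i => (finBasis ℝ E).coord i

theorem tp_vol0 : tp E (vol0 E) = 1 := by
  rw [tp_apply, vol0, evA_iMulti]
  have : (Matrix.of fun i j => (finBasis ℝ E).coord j (finBasis ℝ E i)) = 1 := by
    ext i j
    simp [Matrix.one_apply, Finsupp.single_apply]
  rw [this, Matrix.det_one]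

theorem jac_comp (h : finrank ℝ F = finrank ℝ E) (h' : finrank ℝ G = finrank ℝ F)
    (B : F →L[ℝ] G) (A : E →L[ℝ] F) : jac (B.comp A) = jac A * jac B := by
  have h1 := tp_pb (h'.trans h) (B.comp A) (vol0 G)
  have h2 := tp_pb h A (pb (B : F →ₗ[ℝ] G) (vol0 G))
  rw [tp_pb h' B, pb_comp, tp_vol0, mul_one] at h2
  rw [tp_vol0, mul_one] at h1
  exact h1.symm.trans h2

theorem jac_ne_zero (A : E ≃L[ℝ] F) : jac (A : E →L[ℝ] F) ≠ 0 := by
  have h : finrank ℝ F = finrank ℝ E := A.toLinearEquiv.finrank_eq.symm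
  have h1 := jac_comp h h.symm (A.symm : F →L[ℝ] E) (A : E →L[ℝ] F)
  rw [A.coe_symm_comp_coe, jac_id] at h1
  exact left_ne_zero_of_mul_eq_one h1.symm

theorem contDiff_jac {n : WithTop ℕ∞} : ContDiff ℝ n (jac : (E →L[ℝ] F) → ℝ) := by
  by_cases h : finrank ℝ F = finrank ℝ E
  · have : (jac : (E →L[ℝ] F) → ℝ) = fun A : E →L[ℝ] F => tp E (pb (A : E →ₗ[ℝ] F) (vol0 F)) := by
      funext A; rw [tp_pb h, tp_vol0, mul_one]
    rw [this]
    exact (tp E).contDiff.comp (contDiff_pb_apply _)
  · have : (jac : (E →L[ℝ] F) → ℝ) = fun _ => 0 := funext fun A => dif_neg h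
    rw [this]; exact contDiff_const

/-- the top part evaluated on `n = dim E` vectors is proportional to `tp` -/
theorem evA_eq_tp {n : ℕ} (h : finrank ℝ E = n) (v : Fin n → E) :
    ∃ k : ℝ, (LinearIndependent ℝ v → k ≠ 0) ∧ ∀ c : Ext E, evA E n c v = k * tp E c := by
  subst h
  refine ⟨(finBasis ℝ E).det v, fun hv => ?_, fun c => evA_top c v⟩
  have hs : Submodule.span ℝ (Set.range v) = ⊤ :=
    (hv.span_eq_top_of_card_eq_finrank' (by simp))
  exact ((finBasis ℝ E).is_basis_iff_det.1 ⟨hv, hs⟩).ne_zero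

/-- the quotient of two top forms can be read on any independent family -/
theorem tp_div {n : ℕ} (h : finrank ℝ E = n) {v : Fin n → E} (hv : LinearIndependent ℝ v)
    (a o : Ext E) : tp E a / tp E o = evA E n a v / evA E n o v := by
  obtain ⟨k, hk, e⟩ := evA_eq_tp h v
  rw [e, e, mul_div_mul_left _ _ (hk hv)]

/-- `tp (l ∧ ι_v c) = l v * tp c` -/
theorem tp_io_ii (l : Module.Dual ℝ E) (v : E) (c : Ext E) :
    tp E (io l * ii v c) = l v * tp E c := by
  have h0 : ∀ c : Ext E, evA E (finrank ℝ E + 1) c = 0 := fun c => by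
    ext w
    refine AlternatingMap.map_linearDependent _ w fun hw => ?_
    have := hw.fintype_card_le_finrank
    simp at this
  have h1 : tp E (ii v (io l * c)) = 0 := by
    rw [tp_apply, ← evA_ii, h0]; rfl
  rw [ii_io_mul, map_sub, map_smul, smul_eq_mul] at h1
  linarith

/-! ### Haar measure of the chosen basis -/

variable [MeasurableSpace E] [BorelSpace E] [MeasurableSpace F] [BorelSpace F]

variable (E) in
/-- the Haar measure of the chosen basis -/
def hm : Measure E := (finBasis ℝ E).addHaar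

instance : (hm E).IsAddHaarMeasure := isAddHaarMeasure_basis_addHaar _

theorem map_eqv (h : finrank ℝ F = finrank ℝ E) : (hm F).map (eqv h) = hm E := by
  rw [hm, Basis.map_addHaar, hm, ← Basis.addHaar_reindex (finBasis ℝ E) (finCongr h.symm)]
  congr 1
  ext i
  simp only [Basis.map_apply, Basis.reindex_apply]
  exact eqv_basis h i

/-- change of variables between two spaces of the same dimension -/
theorem lintegral_image (h : finrank ℝ F = finrank ℝ E) {s : Set E} (hs : MeasurableSet s)
    {f : E → F} {f' : E → E →L[ℝ] F} (hf' : ∀ x ∈ s, HasFDerivWithinAt f (f' x) s x)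
    (hf : InjOn f s) (g : F → ℝ≥0∞) :
    ∫⁻ y in f '' s, g y ∂(hm F) = ∫⁻ x in s, ENNReal.ofReal |jac (f' x)| * g (f x) ∂(hm E) := by
  set L := eqv h
  have hL : MeasurableEmbedding L := L.toHomeomorph.measurableEmbedding
  have h1 := lintegral_image_eq_lintegral_abs_det_fderiv_mul (hm E) hs
    (f := fun x => L (f x)) (f' := fun x => (L : F →L[ℝ] E).comp (f' x))
    (fun x hx => (L : F →L[ℝ] E).hasFDerivAt.comp_hasFDerivWithinAt x (hf' x hx))
    (L.injective.injOn.comp hf (mapsTo_univ _ _)) (fun y => g (L.symm y))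
  simp only [ContinuousLinearEquiv.symm_apply_apply] at h1
  simp only [jac_eq h]
  rw [← h1, ← map_eqv h, hL.restrict_map, hL.lintegral_map]
  simp only [ContinuousLinearEquiv.symm_apply_apply]
  rw [← image_image L f s, preimage_image_eq _ L.injective]

/-- any basis: the Haar measure of a basis `b` -/
theorem addHaar_eq {ι : Type*} [Fintype ι] [DecidableEq ι] (b : Basis ι ℝ E)
    (e : ι ≃ Fin (finrank ℝ E)) :
    b.addHaar = ENNReal.ofReal |(b.reindex e).det (finBasis ℝ E)| • hm E := by
  rw [← Basis.addHaar_reindex b e]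
  have h1 := Measure.addHaar_parallelepiped (b.reindex e) (finBasis ℝ E)
  have h2 : (b.reindex e).addHaar = Measure.addHaarScalarFactor (b.reindex e).addHaar (hm E) • hm E :=
    Measure.isAddLeftInvariant_eq_smul _ _
  have h3 : hm E (_root_.parallelepiped (finBasis ℝ E)) = 1 := Basis.addHaar_self _
  generalize Measure.addHaarScalarFactor (b.reindex e).addHaar (hm E) = k at h2
  rw [h2, Measure.smul_apply, h3, ENNReal.smul_def, smul_eq_mul, mul_one] at h1
  rw [← h1]
  exact h2

end Crest.Agent.X212.Int54
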