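import Crest.Agent.X212.Int54.Prod
import Crest.Agent.X212.Int54.Fram
import Crest.Agent.X212.Dr59.Coh

/-!
# X212/Int54/Neck (helper54): Stokes on cylinders, slabs and bands; product frames
-/

set_option autoImplicit false
set_option linter.unusedSectionVars false

open Set Filter Topology Function Module MeasureTheory
open scoped ContDiff ENNReal Manifold
open Crest.Agent.R208 Crest.Agent.R208.F Crest.Agent.X212.Dr59 Crest.Agent.X212.Met55

noncomputable section

namespace Crest.Agent.X212.Int54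

/-- du Bois-Reymond -/
theorem const_of_test {A : ℝ → ℝ} (hA : Continuous A) (h : ∀ χ : ℝ → ℝ, ContDiff ℝ ∞ χ →
    HasCompactSupport χ → ∫ t, A t * deriv χ t = 0) (a b : ℝ) : A a = A b := by
  suffices H : ∀ c t, A (t - c) - A t = 0 by
    have := H (b - a) b
    rwa [sub_sub_cancel, sub_eq_zero] at this
  intro c
  have hc : Continuous fun t => A (t - c) - A t := by fun_prop
  refine congrFun ((hc.ae_eq_iff_eq volume continuous_const).1
    (ae_eq_zero_of_integral_contDiff_smul_eq_zero hc.locallyIntegrable fun ψ h1 h2 => ?_))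
  have d1 : ∀ t, HasDerivAt (fun t => ∫ s in (0 : ℝ)..t, ψ s) (ψ t) t := fun t =>
    (h1.continuous.integral_hasStrictDerivAt 0 t).hasDerivAt
  have d2 : ∀ t, HasDerivAt (fun t => (∫ s in (0 : ℝ)..t + c, ψ s) - ∫ s in (0 : ℝ)..t, ψ s)
      (ψ (t + c) - ψ t) t := fun t => ((d1 (t + c)).comp_add_const t c).sub (d1 t)
  have d3 : deriv (fun t => (∫ s in (0 : ℝ)..t + c, ψ s) - ∫ s in (0 : ℝ)..t, ψ s) =
      fun t => ψ (t + c) - ψ t := funext fun t => (d2 t).deriv
  obtain ⟨R, hR⟩ := h2.isCompact.isBounded.subset_closedBall 0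
  have h3 := h _ (contDiff_infty_iff_deriv.2 ⟨fun t => (d2 t).differentiableAt, by
      rw [d3]; exact (h1.comp (contDiff_id.add contDiff_const)).sub h1⟩)
    (HasCompactSupport.intro (isCompact_closedBall 0 (R + |c|)) fun t ht => by
      rw [intervalIntegral.integral_interval_sub_left (h1.continuous.intervalIntegrable _ _)
        (h1.continuous.intervalIntegrable _ _),
        intervalIntegral.integral_congr (g := fun _ => 0) fun s hs => ?_]
      · simp
      · refine image_eq_zero_of_notMem_tsupport fun hs' => ht ?_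
        have h4 := hR hs'
        have h5 := abs_sub_left_of_mem_uIcc hs
        rw [add_sub_cancel_left] at h5
        rw [mem_closedBall_zero_iff, Real.norm_eq_abs] at h4 ⊢
        linarith [abs_sub_abs_le_abs_sub t s, abs_sub_comm t s])
  have i1 : Integrable fun t => ψ t * A t :=
    (h1.continuous.mul hA).integrable_of_hasCompactSupport h2.mul_right
  have i2 : Integrable fun t => ψ t * A (t - c) :=
    (h1.continuous.mul (hA.comp (continuous_sub_right c))).integrable_of_hasCompactSupport h2.mul_right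
  have i3 := i2.comp_add_right c
  have e3 := integral_add_right_eq_self (μ := volume) (fun t => ψ t * A (t - c)) c
  simp only [add_sub_cancel_right] at i3 e3
  simp only [d3, mul_comm (A _), sub_mul] at h3
  rw [integral_sub i3 i1, e3] at h3
  simp only [smul_eq_mul, mul_sub]
  rw [integral_sub i2 i1, h3]

/-- a weak derivative which is continuous is a derivative -/
theorem ftc_of_test {A G : ℝ → ℝ} (hA : Continuous A) (hG : Continuous G)
    (h : ∀ χ : ℝ → ℝ, ContDiff ℝ ∞ χ → HasCompactSupport χ →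
      ∫ t, A t * deriv χ t = -∫ t, G t * χ t) (a b : ℝ) : A b - A a = ∫ t in a..b, G t := by
  have d1 : ∀ t, HasDerivAt (fun t => ∫ s in a..t, G s) (G t) t := fun t =>
    (hG.integral_hasStrictDerivAt a t).hasDerivAt
  have c1 : Continuous fun t => ∫ s in a..t, G s :=
    continuous_iff_continuousAt.2 fun t => (d1 t).continuousAt
  have h1 := const_of_test (hA.sub c1) (fun χ h1 h2 => by
    have c2 := h1.continuous_deriv (by simp)
    have i1 : Integrable fun t => (∫ s in a..t, G s) * deriv χ t :=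
      (c1.mul c2).integrable_of_hasCompactSupport h2.deriv.mul_left
    have i2 : Integrable fun t => A t * deriv χ t :=
      (hA.mul c2).integrable_of_hasCompactSupport h2.deriv.mul_left
    have e := integral_mul_deriv_eq_deriv_mul_of_integrable (fun t _ => d1 t)
      (fun t _ => (h1.differentiable (by simp) t).hasDerivAt) i1
      ((hG.mul h1.continuous).integrable_of_hasCompactSupport h2.mul_left)
      ((c1.mul h1.continuous).integrable_of_hasCompactSupport h2.mul_left)
    simp only [Pi.sub_apply, sub_mul]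
    rw [integral_sub i2 i1, h χ h1 h2, e, sub_self]) a b
  simp only [Pi.sub_apply, intervalIntegral.integral_same] at h1
  linarith

variable {E : Type*} [NormedAddCommGroup E] [NormedSpace ℝ E] [FiniteDimensional ℝ E]
  {E' : Type*} [NormedAddCommGroup E'] [NormedSpace ℝ E'] [FiniteDimensional ℝ E']
  {ι κ : Type*} [Fintype ι] [Fintype κ]

theorem tp_inv (c : Ext E) : tp E (F.inv c) = (-1) ^ finrank ℝ E * tp E c := by
  rw [tp_apply, Crest.Agent.R208.FI.evA_inv, tp_apply]; rfl

/-! ### product frames -/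

theorem isU_iff_basis {n : ℕ} (b : Basis (Fin n) ℝ E) {v : ι → E} {c : Ext E} :
    IsU v c ↔ (gm b v).det * evA E n c b ^ 2 = 1 := by
  have h : finrank ℝ E = n := by rw [finrank_eq_card_basis b, Fintype.card_fin]
  have h0 : (n.factorial : ℝ) ≠ 0 := by exact_mod_cast n.factorial_ne_zero
  have h1 := cauchy_binet (fm b v) (fm b v).transpose
  have h2 : ∑ Φ : Fin n → ι, evA E n c (fun i => v (Φ i)) ^ 2 =
      n.factorial * ((gm b v).det * evA E n c b ^ 2) := by
    rw [Fintype.card_fin] at h1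
    rw [← mul_assoc, gm, ← h1, Finset.sum_mul]
    refine Finset.sum_congr rfl fun Φ _ => ?_
    conv_lhs => rw [AlternatingMap.eq_smul_basis_det b (evA E n c)]
    rw [← Matrix.det_transpose ((fm b v).transpose.submatrix Φ id), AlternatingMap.smul_apply,
      Basis.det_apply, smul_eq_mul, mul_pow, mul_comm, sq]
    rfl
  rw [isU_iff_sum h, h2]
  exact ⟨fun h => mul_left_cancel₀ h0 (h.trans (mul_one _).symm), fun h => by rw [h, mul_one]⟩

theorem IsU.xp {v : ι → E} {w : κ → E'} {c : Ext E} {c' : Ext E'} (h : IsU v c) (h' : IsU w c') :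
    IsU (Sum.elim (fun a => (v a, (0 : E'))) fun a => ((0 : E), w a)) (xp c c') := by
  let b := ((finBasis ℝ E).prod (finBasis ℝ E')).reindex finSumFinEquiv
  obtain ⟨k, -, hk⟩ := evA_eq_tp (E := E × E') finrank_prod b
  have h1 : Int54.xp (vol0 E) (vol0 E') = ExteriorAlgebra.ιMulti ℝ _ b.coord := by
    rw [Int54.xp, vol0, vol0, pb_iMulti, pb_iMulti, ExteriorAlgebra.ιMulti_mul_ιMulti]
    congr 1
    funext i
    refine Fin.addCases (fun i => ?_) (fun i => ?_) i
    · ext v <;> simp [b]
    · ext v <;> simp [b]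
  have h2 : k * kap E E' = 1 := by
    rw [kap, ← hk, h1, evA_iMulti]
    have : (Matrix.of fun i j => b.coord j (b i)) = 1 := by
      ext i j; simp [Matrix.one_apply, Finsupp.single_apply]
    rw [this, Matrix.det_one]
  have h3 : gm b (Sum.elim (fun a => (v a, (0 : E'))) fun a => ((0 : E), w a)) =
      (Matrix.fromBlocks (gm (finBasis ℝ E) v) 0 0 (gm (finBasis ℝ E') w)).submatrix
        finSumFinEquiv.symm finSumFinEquiv.symm := by
    ext i j
    rw [gm_apply, Matrix.submatrix_apply]
    obtain ⟨i, rfl⟩ := finSumFinEquiv.surjective i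
    obtain ⟨j, rfl⟩ := finSumFinEquiv.surjective j
    simp only [b, Basis.repr_reindex_apply, Equiv.symm_apply_apply]
    rcases i with i | i <;> rcases j with j | j <;> simp [gm_apply]
  rw [isU_iff_basis b, hk, tp_xp, ← mul_assoc k, h2, one_mul, h3, Matrix.det_submatrix_equiv_self,
    Matrix.det_fromBlocks_zero₂₁, mul_pow, mul_mul_mul_comm, h, h', one_mul]

theorem isU_real : IsU (fun _ : Unit => (1 : ℝ)) (io LinearMap.id) :=
  (isU_iff_sum (n := 1) (by simp)).2 (by simp [evA_io])

/-- the frame `(v, ∂/∂t)` of `E × ℝ` -/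
theorem IsU.cyl {v : ι → E} {c : Ext E} (h : IsU v c) {w : Option ι → E × ℝ}
    (h0 : w none = (0, 1)) (h1 : ∀ a, w (some a) = (v a, 0)) :
    IsU w (Int54.xp c (io LinearMap.id)) := (h.xp isU_real).co fun α β => by
  simp [Fintype.sum_option, h0, h1, add_comm]

variable [MeasurableSpace E] [BorelSpace E] [MeasurableSpace E'] [BorelSpace E']
  {H : Type*} [TopologicalSpace H] {I : ModelWithCorners ℝ E H} [I.Boundaryless]
  {M : Type*} [TopologicalSpace M] [ChartedSpace H M] [IsManifold I ∞ M]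
  [MeasurableSpace M] [BorelSpace M] [SecondCountableTopology M] [T2Space M]
  {H' : Type*} [TopologicalSpace H'] {J : ModelWithCorners ℝ E' H'} [J.Boundaryless]
  {N : Type*} [TopologicalSpace N] [ChartedSpace H' N] [IsManifold J ∞ N]
  [MeasurableSpace N] [BorelSpace N] [SecondCountableTopology N] [T2Space N]

local notation "IC" => ModelWithCorners.prod I 𝓘(ℝ, ℝ)

variable {o : M → Ext E} {b c : M × ℝ → Ext (E × ℝ)} {χ : ℝ → ℝ}

theorem sl_inv (y : N) (c : M × N → Ext (E × E')) (x : M) :
    sl I J y (fun z => F.inv (c z)) x = F.inv (sl I J y c x) := by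
  rw [sl_apply, sl_apply, pb_inv]

theorem integ_sl_inv (y : N) (c : M × N → Ext (E × E')) :
    integ I o (sl I J y fun z => F.inv (c z)) = (-1) ^ finrank ℝ E * integ I o (sl I J y c) := by
  rw [integ, integ, ← integral_const_mul]
  refine integral_congr_ae (Eventually.of_forall fun x => ?_)
  simp only [rat, sl_inv, tp_inv, mul_div_assoc]

theorem df_mul {g : M → ℝ} (a : M → Ext E) : df I g * a = (fun z => F.inv (a z)) * df I g :=
  funext fun _ => io_mul _ _

theorem rat_sl (t : ℝ) (x : M) :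
    rat o (sl I 𝓘(ℝ, ℝ) t b) x = rat (cy o) (b * pm IC 𝓘(ℝ, ℝ) Prod.snd dt) (x, t) := by
  rw [rat_mul_snd (b := dt) (fun _ _ => io_mul_io_real _ _), rat_self (ori_dt.ne t), mul_one]

variable [CompactSpace M]

theorem continuous_slice (ho : Ori I o) (hc : ∀ z, CAt IC 0 c z) :
    Continuous fun t => ∫ x, rat (cy o) c (x, t) ∂(dens I o) := by
  have := ho.locFin
  have h := continuous_parametric_integral_of_continuous (μ := dens I o)
    (f := fun (t : ℝ) (x : M) => rat (cy o) c (x, t))
    ((ho.cy.continuous_rat hc).comp continuous_swap) isCompact_univ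
  simpa only [Measure.restrict_univ] using h

theorem continuous_integ_sl (ho : Ori I o) (hb : ∀ z, CAt IC 0 b z) :
    Continuous fun t => integ I o (sl I 𝓘(ℝ, ℝ) t b) := by
  simp only [integ, rat_sl]
  exact continuous_slice ho fun z => (hb z).mul (CAt.pm (by simp) contMDiffAt_snd (ori_dt.c0 _))

theorem hcs_snd {V : Type*} [Zero V] {g : ℝ → V} (h : HasCompactSupport g) :
    HasCompactSupport fun z : M × ℝ => g z.2 :=
  HasCompactSupport.intro (isCompact_univ.prod h.isCompact) fun _ hz =>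
    image_eq_zero_of_notMem_tsupport fun h' => hz ⟨trivial, h'⟩

theorem tsupport_snd {V : Type*} [Zero V] (g : ℝ → V) :
    tsupport (fun z : M × ℝ => g z.2) ⊆ Prod.snd ⁻¹' tsupport g :=
  closure_minimal (fun _ hz => subset_tsupport _ hz)
    ((isClosed_tsupport g).preimage continuous_snd)

/-- `∫ c ∧ d(χ ∘ t) = ∫ χ'(t) ∫_{Y × t} c` -/
theorem integ_mul_df (ho : Ori I o) (hχ : ContDiff ℝ ∞ χ) (hc : HasCompactSupport (deriv χ))
    (hb : ∀ z : M × ℝ, z.2 ∈ tsupport (deriv χ) → CAt IC 0 b z) :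
    integ IC (cy o) (b * df IC fun z : M × ℝ => χ z.2) =
      ∫ t, integ I o (sl I 𝓘(ℝ, ℝ) t b) * deriv χ t := by
  have h1 : tsupport (b * df IC fun z : M × ℝ => χ z.2) ⊆ univ ×ˢ tsupport (deriv χ) :=
    closure_minimal (fun z hz => ⟨trivial, subset_tsupport _ fun h => hz (by
      rw [df_snd (hχ.differentiable (by simp)), Pi.mul_apply, pm_snd, Pi.smul_apply', h, zero_smul,
        map_zero, mul_zero])⟩) (isClosed_univ.prod (isClosed_tsupport _))
  have h2 := integOn_mul_df ho.cd (hχ.differentiable (by simp)) (c := b) (s := univ) (t := univ)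
    (ho.cy.intOn_of_hcs (cAt_of_tsupport fun z hz => (hb z (h1 hz).2).mul
      ((smAt_df ((hχ.contMDiff _).comp z contMDiffAt_snd)).of_le (by simp)))
      ((isCompact_univ.prod hc.isCompact).of_isClosed_subset (isClosed_tsupport _) h1) _)
  simpa only [univ_prod_univ, integOn_univ, Measure.restrict_univ] using h2

theorem integ_df_mul (ho : Ori I o) (hχ : ContDiff ℝ ∞ χ) (hc : HasCompactSupport (deriv χ))
    (hb : ∀ z : M × ℝ, z.2 ∈ tsupport (deriv χ) → CAt IC 0 b z) :
    integ IC (cy o) ((df IC fun z : M × ℝ => χ z.2) * b) =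
      (-1) ^ finrank ℝ E * ∫ t, integ I o (sl I 𝓘(ℝ, ℝ) t b) * deriv χ t := by
  rw [df_mul, integ_mul_df ho hχ hc fun z hz => (hb z hz).inv, ← integral_const_mul]
  simp only [integ_sl_inv, mul_assoc]

/-- the neck identity `∫ χ db = ∓ ∫ χ'(t) ∫_{Y × t} b` -/
theorem integ_neck_dM (ho : Ori I o) (hχ : ContDiff ℝ ∞ χ) (hc : HasCompactSupport χ)
    (hb : ∀ z : M × ℝ, z.2 ∈ tsupport χ → SmAt IC b z) :
    integ IC (cy o) ((fun z : M × ℝ => χ z.2) • dM IC b) =
      -((-1) ^ finrank ℝ E * ∫ t, integ I o (sl I 𝓘(ℝ, ℝ) t b) * deriv χ t) := by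
  rw [integ_fsmul_dM ho.cy (g := fun z : M × ℝ => χ z.2) (hχ.contMDiff.comp contMDiff_snd) (hcs_snd hc)
    fun z hz => hb z (tsupport_snd χ hz)]
  exact congrArg _ (integ_df_mul ho hχ hc.deriv fun z hz =>
    (hb z (tsupport_deriv_subset hz)).of_le (by simp))

theorem integOn_slab (ho : Ori I o) (hc : ∀ z, CAt IC 0 c z) {s t : ℝ} (h : s ≤ t) :
    integOn IC (cy o) c (univ ×ˢ Ioc s t) = ∫ u in s..t, ∫ x, rat (cy o) c (x, u) ∂(dens I o) := by
  rw [integOn_prod ho.cd ori_dt.cd ((ho.cy.intOn_compact hc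
    (isCompact_univ.prod (isCompact_Icc (a := s) (b := t)))).mono
      (prod_mono_right Ioc_subset_Icc_self)), dens_dt, intervalIntegral.integral_of_le h]
  simp only [Measure.restrict_univ]

/-- the derivative of the slice integrals -/
theorem integ_sl_sub (ho : Ori I o) (hb : ∀ z, SmAt IC b z) (s t : ℝ) :
    integ I o (sl I 𝓘(ℝ, ℝ) t b) - integ I o (sl I 𝓘(ℝ, ℝ) s b) =
      (-1) ^ finrank ℝ E * ∫ u in s..t, ∫ x, rat (cy o) (dM IC b) (x, u) ∂(dens I o) := by
  have c0 : ∀ z, CAt IC 0 (dM IC b) z := fun z => (hb z).dM.of_le (by simp)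
  rw [← intervalIntegral.integral_const_mul]
  refine ftc_of_test (G := fun u => (-1) ^ finrank ℝ E * ∫ x, rat (cy o) (dM IC b) (x, u) ∂(dens I o))
    (continuous_integ_sl ho fun z => (hb z).of_le (by simp))
    (continuous_const.mul (continuous_slice ho c0)) (fun χ h1 h2 => ?_) s t
  have h3 := integ_neck_dM ho h1 h2 fun z _ => hb z
  have h4 := integOn_prod ho.cd ori_dt.cd (s := univ) (t := univ)
    (c := (fun z : M × ℝ => χ z.2) • dM IC b) (ho.cy.intOn_of_hcs (fun z => (c0 z).fsmul (by simp)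
      (((h1.contMDiff.comp contMDiff_snd) z).of_le (by simp))) (hcs_snd h2).smul_right _)
  simp only [univ_prod_univ, integOn_univ, Measure.restrict_univ, dens_dt, rat_fsmul, Pi.mul_apply,
    integral_const_mul] at h4
  simp only [mul_comm (χ _)] at h4
  simp only [mul_assoc, integral_const_mul]
  rw [← h4, h3, mul_neg, neg_neg, ← mul_assoc, ← mul_pow]
  simp

/-- **Stokes on a slab** -/
theorem stokes_slab (ho : Ori I o) (hb : ∀ z, SmAt IC b z) {s t : ℝ} (h : s ≤ t) :
    integOn IC (cy o) (dM IC b) (univ ×ˢ Ioc s t) = (-1) ^ finrank ℝ E *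
      (integ I o (sl I 𝓘(ℝ, ℝ) t b) - integ I o (sl I 𝓘(ℝ, ℝ) s b)) := by
  rw [integ_sl_sub ho hb, integOn_slab ho (fun z => (hb z).dM.of_le (by simp)) h, ← mul_assoc,
    ← mul_pow]
  simp

/-- the slice integrals of a closed form do not depend on the slice -/
theorem integ_sl_const (ho : Ori I o) (hb : ∀ z, SmAt IC b z)
    (hd : ∀ z, tp (E × ℝ) (dM IC b z) = 0) (s t : ℝ) :
    integ I o (sl I 𝓘(ℝ, ℝ) t b) = integ I o (sl I 𝓘(ℝ, ℝ) s b) := by
  rw [← sub_eq_zero, integ_sl_sub ho hb]
  simp [rat, hd]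

section band
variable {O β : N → Ext E'} {j : M × ℝ → N} {g : N → ℝ}

/-- a band `j` in `N`; `g` is a function of the band coordinate and `dg = 0` off the band -/
theorem integ_band (h : finrank ℝ E' = finrank ℝ (E × ℝ)) (hO : Ori J O) (ho : Ori I o)
    (hj : ContMDiff IC J ∞ j) (hi : Injective j) (hp : SameOn (cy o) (pm IC J j O) univ)
    (hg : ∀ z, MDifferentiableAt J 𝓘(ℝ, ℝ) g (j z)) (hχ : ContDiff ℝ ∞ χ)
    (hc : HasCompactSupport (deriv χ)) (e : ∀ z, g (j z) = χ z.2)
    (h0 : ∀ x, x ∉ range j → df J g x = 0)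
    (hβ : ∀ z : M × ℝ, z.2 ∈ tsupport (deriv χ) → CAt J 0 β (j z)) :
    integ J O (df J g * β) = (-1) ^ finrank ℝ E *
      ∫ t, integ I o (pm I J (fun x => j (x, t)) β) * deriv χ t := by
  have h1 : pm IC J j (df J g) = df IC fun z : M × ℝ => χ z.2 := funext fun z => by
    rw [pm_df ((hj z).mdifferentiableAt (by simp)) (hg z), show g ∘ j = _ from funext e]
  rw [integ_map h hO ho.cy hj hi hp fun x hx => by rw [Pi.mul_apply, h0 x hx, zero_mul, map_zero],
    pm_mul, h1, integ_df_mul ho hχ hc fun z hz => CAt.pm (by simp) (hj z) (hβ z hz)]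
  congr 4
  funext t
  congr 2
  funext x
  exact pm_comp ((hj _).mdifferentiableAt (by simp))
    (mdifferentiableAt_id.prodMk mdifferentiableAt_const)

end band

end Crest.Agent.X212.Int54
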